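import Crest.Agent.X212.Nk89.Lv
import Crest.Agent.X212.Kah60.Cut
import Crest.Agent.X212.Wz78.Par

/-! The based gauge group acts freely. -/

set_option autoImplicit false
set_option linter.unusedSectionVars false
noncomputable section
open scoped Manifold ContDiff Topology InnerProductSpace
open MeasureTheory Set Function Filter

namespace Crest.Agent.X212.End14
open An An.Pre Sob92 Mod61 Nd18 Eqv71 Nk89
open Grp76 (dif Ph)
open Wz78 (nab nabE SA)

variable {E : Type} [NormedAddCommGroup E] [NormedSpace ℝ E] [FiniteDimensional ℝ E]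
  [MeasurableSpace E] [BorelSpace E]
  {HM : Type} [TopologicalSpace HM] {I : ModelWithCorners ℝ E HM} [I.Boundaryless]
  {M : Type} [TopologicalSpace M] [ChartedSpace HM M] [IsManifold I ∞ M]
  [MeasurableSpace M] [T2Space M] [BorelSpace M] [SecondCountableTopology M]
  {ι κ : Type} [Fintype ι] [Fintype κ] {lam : Type} [Fintype lam]
  {T : Type} [NormedAddCommGroup T] [NormedSpace ℝ T]

/-- elements of `Hs` are small off a compact set -/
theorem hs_small {V : Type} [NormedAddCommGroup V] [InnerProductSpace ℝ V] [CompleteSpace V]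
    {F : Fr I M ι} {S : ℝ} (hS : Sup F.toPre S) {p : M → V →L[ℝ] V} {u : M → V}
    (hu : u ∈ Hs F.toPre p) {ε : ℝ} (hε : 0 < ε) : ∃ K, IsCompact K ∧ ∀ x ∉ K, ‖u x‖ ≤ ε := by
  obtain ⟨h, rfl⟩ := hu 4 le_rfl
  have h0 : 0 < √|S| + 1 := by positivity
  obtain ⟨v, hv⟩ := Metric.denseRange_iff.1 (F.dense_toH 4 p) h _ (div_pos hε h0)
  refine ⟨_, v.2.2.1, fun x hx => ?_⟩
  have h1 := norm_val_le hS le_rfl (h - F.toH 4 p v) x
  rw [val_sub, val_toH hS le_rfl, Pi.sub_apply, image_eq_zero_of_notMem_tsupport hx,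
    sub_zero] at h1
  rw [dist_eq_norm, lt_div_iff₀ h0] at hv
  nlinarith [norm_nonneg (h - F.toH 4 p v)]

theorem const_cc {N : Type} [NormedAddCommGroup N] [NormedSpace ℝ N] (F : Pre I M ι) {h : M → N}
    {O : Set M} (hO : IsClopen O)
    (hd : ∀ y ∈ O, MDifferentiableAt I 𝓘(ℝ, N) h y ∧ ∀ a, F.D a h y = 0) {x y : M} (hx : x ∈ O)
    (hy : y ∈ connectedComponent x) : h y = h x := by
  have h1 : ∀ z ∈ O, ∀ᶠ w in 𝓝 z, h w = h z := fun z hz =>
    Kah60.ev_const F ((hO.2.eventually_mem hz).mono hd)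
  have : PreconnectedSpace (connectedComponent x) :=
    Subtype.preconnectedSpace isPreconnected_connectedComponent
  exact ((IsLocallyConstant.iff_eventually_eq fun z : connectedComponent x => h z).2 fun z =>
    continuousAt_subtype_val.eventually (h1 z (hO.connectedComponent_subset hx z.2)
      )).apply_eq_of_preconnectedSpace ⟨y, hy⟩ ⟨x, mem_connectedComponent⟩

section pt
variable {𝔉 : Fam I M (Option κ) lam T} {P : End 𝔉} {ψ : M → ℝ} {δ R s : ℝ}

variable (P) in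
theorem sg_sg (s : ℝ) : P.sg * (P.sg * s) = s := by
  unfold End.sg; cases P.out <;> simp

variable (P) in
theorem abs_sg (s : ℝ) : |P.sg * s| = |s| := by
  unfold End.sg; cases P.out <;> simp

theorem src_of (h : P.OK ψ δ R) {z : P.Y.M × ℝ} (hz : R ≤ P.sg * z.2) : z ∈ P.K.ψ.source :=
  P.K.mem_src.2 (Dp_sub (by norm_num) (h.inf _ hz))

theorem tm_pt (h : P.OK ψ δ R) (hs : R ≤ s) (y : P.Y.M) : P.K.tm (P.pt s y) = P.sg * s :=
  P.K.tm_ψ _ (src_of h (by rwa [sg_sg]))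

/-- the component of a point of the end leaves every compact set -/
theorem exists_far (h : P.OK ψ δ R) {x : M} (hx : x ∈ P.U R) {K : Set M} (hK : IsCompact K) :
    ∃ y ∈ connectedComponent x, y ∉ K := by
  obtain ⟨C, hC⟩ := hK.exists_bound_of_continuousOn P.K.cont.continuousOn
  set z := P.K.ψ.symm x
  have hz : P.pt (P.sg * P.K.tm x) z.1 = x := by
    rw [End.pt, sg_sg, ← P.K.snd_symm hx.1]; exact P.K.ψ.right_inv hx.1
  have hc : ContinuousOn (fun s => P.pt s z.1) (Ici R) :=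
    P.K.ψ.continuousOn.comp (by fun_prop) fun s hs => src_of h (by rwa [sg_sg])
  refine ⟨P.pt (max R (|C| + 1)) z.1, (isPreconnected_Ici.image _ hc).subset_connectedComponent
    ⟨_, hx.2.le, hz⟩ ⟨_, mem_Ici.2 (le_max_left _ _), rfl⟩, fun k => ?_⟩
  have h1 := hC _ k
  rw [tm_pt h (le_max_left _ _), Real.norm_eq_abs, abs_sg] at h1
  linarith [le_abs_self (max R (|C| + 1)), le_max_right R (|C| + 1), le_abs_self C]

end pt

section gen
variable {𝔉 : Fam I M ι lam T} (h : 𝔉.OK) {o : Ref 𝔉} {r : ℕ} {y : Pnt o r}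
  {w : M → CL o.m.V o.m.V} {c : Circle} {x : M}
include h

theorem sm_dif (e : y.Eq y w c) : Sm I (dif o w) := Grp76.sm_ind h.Om fun x hx =>
  SA.clm hsL ((e.m.su.contMDiffAt (h.Om.2.mem_nhds hx)).sub (o.ok.sp x))

theorem nab_dif (e : y.Eq y w c) (hx : x ∈ 𝔉.Om) (a : ι) :
    nab I (𝔉.G y.t).F.e (o.m.adW (o.W y.t y.α)) a (dif o w) x = 0 := by
  have hw : SA I w x := e.m.su.contMDiffAt (h.Om.2.mem_nhds hx)
  have C : o.m.IsConn 𝔉.B (𝔉.G y.t) (o.W y.t y.α) := (y.ad0 h).conn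
  have h1 : nabE I (𝔉.G y.t).F.e (o.W y.t y.α) a w x = 0 := by
    have h2 : ∑ b, 𝔉.B.P b a x • o.W y.t y.α b x = o.W y.t y.α a x := by
      simp only [fun b => (h.B.pr x).symm b a]; exact C.cc.proj a x
    have h3 : (𝔉.G y.t).F.D a w x + (∑ b, 𝔉.B.P b a x • o.W y.t y.α b x) ∘L w x -
      w x ∘L o.W y.t y.α a x = 0 := e.W x hx a
    rw [← h3, h2, add_sub_assoc]; rfl
  rw [Wz78.nab_congr a (Grp76.ind_ev h.Om.2 hx _), Wz78.hsL_nab a (hw.sub (o.ok.sp x)),
    Wz78.nabE_sub a hw (o.ok.sp x), h1, show nabE I _ _ a o.m.p x = 0 from C.cc.par a x,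
    sub_self, map_zero]

theorem norm_dif (e : y.Eq y w c) (hx : x ∈ 𝔉.Om) {x' : M} (hx' : x' ∈ connectedComponent x) :
    ‖dif o w x'‖ = ‖dif o w x‖ := by
  have hs := sm_dif h e
  have C : o.m.IsConn 𝔉.B (𝔉.G y.t) (o.W y.t y.α) := (y.ad0 h).conn
  have := const_cc (h := fun x => ⟪dif o w x, dif o w x⟫_ℝ) (𝔉.G y.t).F.toPre h.Om
    (fun z hz => ⟨(SA.inner (hs z) (hs z)).md, fun a => by
      rw [Pre.D_def, Wz78.dv_inner a (Wz78.adW_skw C a z) (hs z) (hs z), nab_dif h e hz a]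
      simp⟩) hx hx'
  simp only [real_inner_self_eq_norm_sq] at this
  exact (pow_left_inj₀ (norm_nonneg _) (norm_nonneg _) two_ne_zero).1 this

theorem w_eq (e : y.Eq y w c) (hx : x ∈ 𝔉.Om) :
    ∃ t : ℝ, w x = t • o.m.p x + opL (o.m.pg x (dif o w x)) := by
  obtain ⟨t, ξ, hξ, h1⟩ := (Std94.itx_iff h.B (Std94.pmx o.ok x) _).1
    ((Grp76.Ph_iff h x _).1 (Grp76.Ph_w h e.m x)).1
  have h2 : o.m.pg x (hsL (o.m.p x)) = 0 := by
    obtain ⟨U, s, u, h'⟩ := Std94.exists_fx h.B (Std94.pmx o.ok x)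
    rw [← h'.Xi_one, h'.pg_Xi, Quaternion.im_one, map_zero, map_zero]
  have h3 : o.m.pg x (dif o w x) = ξ := by
    rw [← Wz78.hsL_opL (dif o w x), h1, map_add, map_add, map_smul, map_smul, h2, smul_zero,
      zero_add, Wz78.hsL_opL, Wz78.pg_of_mem hξ]
  rw [indicator_of_mem hx, Wz78.opL_hsL, sub_eq_iff_eq_add] at h1
  exact ⟨t + 1, by rw [h3, h1]; module⟩

theorem dif_zero (e : y.Eq y w 1) (hx : x ∈ 𝔉.Om) (h0 : o.Φ0 x + y.φ x ≠ 0) :
    dif o w x = 0 := by
  obtain ⟨t, ht⟩ := w_eq h e hx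
  have hξ := Wz78.pg_mem (m := o.m) x (dif o w x)
  have h1 : o.Φ0 x + y.φ x = w x (o.Φ0 x + y.φ x) := (e.Φ' h x).trans (cs_one _ _)
  have h2 : o.m.p x (o.Φ0 x + y.φ x) = o.Φ0 x + y.φ x := Grp76.p_Pp h (y.pΦ h x)
  set v := o.Φ0 x + y.φ x
  set ξ := o.m.pg x (dif o w x)
  have h3 : ⟪opL ξ v, v⟫_ℝ = 0 := by
    have := hξ.1 v v
    rw [real_inner_comm] at this
    linarith [real_inner_comm v (opL ξ v)]
  rw [ht, _root_.add_apply, _root_.smul_apply, h2] at h1
  have h4 : t = 1 := by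
    have := congrArg (⟪·, v⟫_ℝ) h1
    simp only [inner_add_left, h3, real_inner_smul_left, add_zero] at this
    exact (mul_eq_right₀ (by simpa using h0)).1 this.symm
  rw [h4, one_smul, left_eq_add] at h1
  have h5 := Std94.norm_g_apply h.B (Std94.pmx o.ok x) hξ v
  rw [h1, h2, norm_zero, eq_comm, mul_eq_zero, norm_eq_zero, or_iff_left h0, div_eq_zero_iff,
    norm_eq_zero, or_iff_left four_ne_zero] at h5
  rw [dif, indicator_of_mem hx, ht, h4, h5]
  simp

end gen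

theorem free {𝔉 : Fam I M (Option κ) lam T} {δ : ℝ} (X : Ends 𝔉 δ) : X.FreeStmt := by
  rintro o r y H w c ⟨rfl, hw⟩ e
  have h := X.ok
  have h0 : ∀ x ∈ 𝔉.Om, (∃ a, ((X.P a).U X.R ∩ connectedComponent x).Nonempty) ∨
      (∃ x' ∈ connectedComponent x, y.cfg.Φ x' ≠ 0) → w x = o.m.p x := fun x hx k => by
    have : dif o w x = 0 := by
      rcases k with ⟨a, x', h1, h2⟩ | ⟨x', h1, h2⟩
      · refine norm_le_zero_iff.1 (le_of_forall_pos_le_add fun ε hε => ?_)
        obtain ⟨K, hK, h3⟩ := hs_small h.sup hw hε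
        obtain ⟨z, h4, h5⟩ := exists_far (X.okP a) h1 hK
        rw [← connectedComponent_eq h2] at h4
        rw [← norm_dif h e hx h4, zero_add]
        exact h3 z h5
      · rw [← norm_eq_zero, ← norm_dif h e hx h1, norm_eq_zero]
        exact dif_zero h e (h.Om.connectedComponent_subset hx h1) h2
    rw [dif, indicator_of_mem hx] at this
    rw [← sub_eq_zero, ← Wz78.opL_hsL (w x - _), this, map_zero]
  have h1 : ∀ x ∈ 𝔉.Om, ∃ t : ℝ, w x = t • o.m.p x := fun x hx => by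
    rcases or_assoc.2 (H x hx) with k | ⟨-, k⟩
    · exact ⟨1, by rw [one_smul, h0 x hx k]⟩
    obtain ⟨t, ht⟩ := w_eq h e hx
    have hs := Std94.sm_pg h.B o.ok
    have C : o.m.IsConn 𝔉.B (𝔉.G y.t) (o.W y.t y.α) := (y.ad0 h).conn
    have : o.m.pg x (dif o w x) = 0 := by_contra fun k' => k ⟨fun z => o.m.pg z (dif o w z),
      ⟨(hs.clm_apply (sm_dif h e)).contMDiffOn, fun z _ => Wz78.pg_mem z _, fun a z hz =>
        (Wz78.pg_nab o.ok C hs a (sm_dif h e z)).trans (by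
          rw [nab_dif h e (h.Om.connectedComponent_subset hx hz), map_zero]; rfl)⟩, x,
      mem_connectedComponent, k'⟩
    exact ⟨t, by rw [ht, this, map_zero, add_zero]⟩
  refine ⟨fun x hx ξ hξ => ?_, fun x hx v hv => ?_, fun z => by simp⟩
  · have m : MX o o x (w x) := me_of_meq e.m hx
    obtain ⟨t, ht⟩ := h1 x hx
    refine m.cancel (m.cj_mem (BE.refl h.B x) o.ok o.ok hξ) hξ ?_
    rw [m.cj_comp hξ, ht, ContinuousLinearMap.smul_comp, ContinuousLinearMap.comp_smul]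
    exact congrArg _ ((Wz78.g_p hξ).trans (Wz78.g_p' o.ok hξ).symm)
  · rw [h0 x (h.sub hx) ((or_assoc.2 (H x (h.sub hx))).resolve_right fun k => k.1 hx),
      Circle.coe_one, cs_one, ← hv, ← mul_apply_eq_comp, Std94.p_pp h.B (Std94.pmx o.ok x)]

end Crest.Agent.X212.End14
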