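import Crest.Agent.X212.End14.Bas
import Crest.Agent.X212.Bki64.G1

/-! One end: transport to the cylinder, the gauge at infinity. -/

set_option autoImplicit false
set_option linter.unusedSectionVars false
noncomputable section
open scoped Manifold ContDiff Topology InnerProductSpace
open MeasureTheory Set Function Filter Real

namespace Crest.Agent.X212.End14
open An An.Pre Sob92 Mod61 Nd18 Eqv71 Nk89 Cyf70 End3 Pj41 Neck67 Bki64 Cmp73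
open Tmp64 (AdmOn admOn_univ)
open Grp76 (Nice hs_iff)

variable {E : Type} [NormedAddCommGroup E] [NormedSpace ℝ E] [FiniteDimensional ℝ E]
  [MeasurableSpace E] [BorelSpace E]
  {HM : Type} [TopologicalSpace HM] {I : ModelWithCorners ℝ E HM} [I.Boundaryless]
  {M : Type} [TopologicalSpace M] [ChartedSpace HM M] [IsManifold I ∞ M]
  [MeasurableSpace M] [T2Space M] [BorelSpace M] [SecondCountableTopology M]
  {κ : Type} [Fintype κ] {lam : Type} [Fintype lam]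
  {T : Type} [NormedAddCommGroup T] [NormedSpace ℝ T]
  {N : Type} [NormedAddCommGroup N] [NormedSpace ℝ N]
  {𝔉 : Fam I M (Option κ) lam T} {δ : ℝ} {r k : ℕ}

theorem alg {a b : Type} [Fintype a] [Fintype b] (D u : CL (Eu a) (Eu b)) (A B : En b) (W : En a) :
    (D + A ∘L u - u ∘L W) ∘L trn u = (D + B ∘L u - u ∘L W) ∘L trn u - (B - A) ∘L u ∘L trn u := by
  simp only [ContinuousLinearMap.add_comp, ContinuousLinearMap.sub_comp,
    ContinuousLinearMap.comp_assoc]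
  abel

/-- the base configuration for `G0` -/
abbrev bt (o : Ref 𝔉) (t : T) : Cfg M (Option κ) lam 0 := ⟨o.m, o.A t, o.Φ0, 0⟩

theorem zz_sb {α : Type} {l : Filter α} {S : α → Set M} {F : Pre I M (Option κ)} {O : Set T}
    {f : T → M → N} (h : Prm93.SB F O f) {t : α → T} {t₀ : T} (h0 : t₀ ∈ O)
    (ht : Tendsto t l (𝓝[O] t₀)) (hS : ∀ᶠ n in l, IsOpen (S n)) :
    ZZ F l S k fun n x => f (t n) x - f t₀ x := fun ε hε => by
  filter_upwards [hS, ht.eventually self_mem_nhdsWithin, ht.eventually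
    (Metric.tendsto_nhds.1 ((h.sm k).continuousOn t₀ h0) ε hε)] with n h1 h2 h3
  rw [dist_eq_norm] at h3
  have := (Prm93.B.norm_le hε.le).1 h3.le
  rw [map_sub, Prm93.fn_toB (h.cb _ h2), Prm93.fn_toB (h.cb _ h0)] at this
  exact ⟨h1, Lb.of_CB ((h.cb _ h2).choose_spec.1.sub (h.cb _ h0).choose_spec.1) this⟩

theorem cz_shift {α : Type} {l : Filter α} {S : α → Set M} {o : Ref 𝔉}
    {c : α → Cfg M (Option κ) lam r} {u : ∀ n, M → CL (c n).m.V o.m.V} {ζ : α → M → Circle}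
    {t : α → T} {t₀ : T} (ht : Tendsto t l (𝓝 t₀))
    (H : ∀ ε > 0, ∀ᶠ n in l, Cl 𝔉.F0 (c n) (bt o (t n)) (u n) (ζ n) (S n) k ε) :
    CZ 𝔉.F0 l S k c (bt o t₀) u ζ := by
  have h1 := (H 1 one_pos).mono fun _ h => h.iso
  have h2 := (H 1 one_pos).mono fun _ h => h.op
  refine CZ.mk h1 (fun a => (ZZ.sub (fun ε hε => (H ε hε).mono fun _ h => ⟨h.op, h.A a⟩)
    ((zz_sb (o.sbA a) trivial (nhdsWithin_univ t₀ ▸ ht) h2).comp (BB.of_CB h2 o.cp))).congr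
      (h1.mono fun n h x hx => ?_)) fun ε hε => (H ε hε).mono fun _ h => ⟨h.op, h.P⟩
  rw [← (h.iso x hx).tgt, ad_trn]
  exact alg _ _ _ _ _

section cyl
variable {E3 : Type} [NormedAddCommGroup E3] [NormedSpace ℝ E3] [FiniteDimensional ℝ E3]
  [MeasurableSpace E3] [BorelSpace E3]
  {H3 : Type} [TopologicalSpace H3] {I3 : ModelWithCorners ℝ E3 H3} [I3.Boundaryless]
  {Y : Type} [TopologicalSpace Y] [ChartedSpace H3 Y] [IsManifold I3 ∞ Y] [T2Space Y]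
  [MeasurableSpace Y] [BorelSpace Y] [SecondCountableTopology Y] [CompactSpace Y]
  {D : YD I3 Y κ lam} {β : YC Y κ lam}

theorem lb_iff {F : Fr (IC I3) (Y × ℝ) (Option κ)} {F' : Fr I M (Option κ)} {ψ : Y × ℝ → M}
    {O : Set (Y × ℝ)} (h : FRel F F' ψ O) {f : M → N} {g : Y × ℝ → N} (e : ∀ z ∈ O, g z = f (ψ z))
    {η : ℝ} : Lb F.toPre O k g η ↔ Lb F'.toPre (ψ '' O) k f η := by
  have ev := fun z (hz : z ∈ O) => (h.op.eventually_mem hz).mono e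
  exact ⟨fun H => Lb.of_Dw (forall_mem_image.2 fun z hz => fsm_ld (h.ld z hz)
      ((H.sm hz).congr_of_eventuallyEq (EventuallyEq.symm (ev z hz)))) fun w hw =>
      forall_mem_image.2 fun z hz => h.Dw hz w (ev z hz) ▸ H.Dw w hw z hz,
    fun H => Lb.of_Dw (fun z hz => (h.sm hz (H.sm ⟨z, hz, rfl⟩)).congr_of_eventuallyEq (ev z hz))
      fun w hw z hz => (h.Dw hz w (ev z hz)).symm ▸ H.Dw w hw _ ⟨z, hz, rfl⟩⟩

/-- exact isomorphisms preserve closeness, with a constant -/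
theorem stb_cl {m : Md Y (Option κ) lam} {g : Y → CL m.V m.V} (ξ : Circle)
    (sg : Sm (IC I3) fun x : Y × ℝ => g x.1) (k : ℕ) :
    ∃ A, ∀ W Φ z, D.Adm ⟨m, W, Φ, z⟩ → Stb D ⟨m, W, Φ, z⟩ ⟨m, W, Φ, z⟩ g ξ →
      ∀ (c : Cfg (Y × ℝ) (Option κ) lam r) u ζ O η, Cl D.Z c (cy ⟨m, W, Φ, z⟩) u (fun _ => ζ) O k η →
      Cl D.Z c (cy ⟨m, W, Φ, z⟩) (fun x => g x.1 ∘L u x) (fun _ => ξ * ζ) O k (A * |η|) := by
  obtain ⟨C, hC⟩ := cb_inv D.F.toPre sg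
  obtain ⟨C', hC'⟩ := Cb_clm adL ⟨C, hC⟩
  obtain ⟨C'', hC''⟩ := Cb_comp (Cb_const (csB m.J ξ)) ⟨C, hC⟩
  refine ⟨max (2 ^ k * |C k| * (2 ^ k * |C' k|)) (2 ^ k * |C'' k|), fun W Φ z hβ h c u ζ O η H =>
    ⟨H.op, H.iso.trans (h.iso.mono (subset_univ _)), fun a => ?_, ?_⟩⟩
  · refine (((Lb.of_CB sg (hC.2 k)).comp H.op ((H.A a).comp H.op (Lb.of_CB hC'.1 (hC'.2 k)))).congr
      H.op fun x hx => ?_).mono (le_trans (le_of_eq ?_)
        (mul_le_mul_of_nonneg_right (le_max_left _ _) (abs_nonneg η)))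
    · refine (dA_comp H.iso (h.iso.mono (subset_univ _)) hx a).trans ?_
      rw [dA, h.par, ContinuousLinearMap.zero_comp, zero_add]
      rfl
    · rw [abs_of_nonneg (by positivity : 0 ≤ 2 ^ k * |η| * |C' k|)]; ring
  · refine (((Lb.of_CB hC''.1 (hC''.2 k)).app H.op H.P).congr H.op fun x hx => ?_).mono
      (mul_le_mul_of_nonneg_right (le_max_right _ _) (abs_nonneg η))
    refine (dP_comp hβ.adm.ok.Jsq (h.iso.mono (subset_univ _)) hx ζ ξ).trans ?_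
    rw [show dP (cy ⟨m, W, Φ, z⟩) (cy ⟨m, W, Φ, z⟩) (fun x => g x.1) ξ x = 0 from
      sub_eq_zero.2 (h.Φ x.1), zero_add]
    rfl

theorem stb_iff (hD : D.OK) (hβ : D.Adm β) {g : Y → CL β.m.V β.m.V} {ξ : Circle} :
    Stb D β β g ξ ↔ EqOn D.B D.Z univ (cy β) (cy β) (fun x => g x.1) ξ :=
  ⟨fun h => ⟨h.iso.mEq (OK.on hβ.adm.ok _) (OK.on hβ.adm.ok _),
    (par0_iff ((IsConn.on hβ.adm.conn _).proj' hD.B)).1 fun x _ a => h.par a x,
    fun x _ => (h.Φ x.1).symm, Subsingleton.elim _ _⟩,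
  fun h => ⟨.of_mEq isOpen_univ h.m (OK.on hβ.adm.ok _) (OK.on hβ.adm.ok _), fun a x =>
    (par0_iff ((IsConn.on hβ.adm.conn _).proj' hD.B)).2 h.W x trivial a,
    fun y => (h.Φ (y, 0) trivial).symm⟩⟩

end cyl

section one
variable {P : End 𝔉} {ψ : M → ℝ} {R₀ R : ℝ} (H : 𝔉.OK) (h : P.OK ψ δ R₀) {t : T} (ht : t ∈ 𝔉.Q)
  {o : Ref 𝔉}
include H h ht

theorem e_end {x : M} (hx : x ∈ P.U R₀) (a : Option κ) : (𝔉.G t).F.e a x = 𝔉.F0.e a x := by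
  rw [H.mix t ht a x, ← 𝔉.F0.P_e a x, H.P0]
  simp only [(h.S t ht x hx _ _).1]

theorem D_end {x : M} (hx : x ∈ P.U R₀) (a : Option κ) (u : M → N) :
    (𝔉.G t).F.D a u x = 𝔉.F0.D a u x := by
  simp only [Pre.D_def, dv, e_end H h ht hx]

omit ht in
theorem fRel0 : FRel P.D.Z 𝔉.F0 P.K.ψ {z | R₀ < P.sg * z.2} :=
  have k := P.K.rel.mono (isOpen_hi P R₀) fun _ => mem_src h le_rfl
  ⟨k.op, k.ld, fun a z hz => H.e0 ▸ k.e a z hz⟩

theorem gRel : GRel P.D.B P.D.G 𝔉.B (𝔉.G t) P.K.ψ {z | R₀ < P.sg * z.2} :=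
  have k := (nk_gRel P.K).mono (isOpen_hi P R₀) fun _ => mem_src h le_rfl
  ⟨⟨k.fr.op, k.fr.ld, fun a z hz => ((fRel0 H h).e a z hz).trans
    (e_end H h ht (mem_U h le_rfl hz) a).symm⟩, k.P, k.o, k.l, k.il,
    fun a z hz => (k.a a z hz).trans (h.a t ht _ (mem_U h le_rfl hz) a).symm⟩

theorem admOn_pb {c : Cfg M (Option κ) lam r} (hc : Adm0 c 𝔉.B (𝔉.G t)) :
    AdmOn (P.K.pb (noz c)) P.D.B P.D.G {z | R₀ < P.sg * z.2} :=
  ((gRel H h ht).admOn_iff (c := noz c)).2 ⟨OK.on hc.ok _, IsConn.on hc.conn _, fun x _ => hc.sm x,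
    fun x _ => hc.pos x, .inl rfl⟩

theorem W0_end {x : M} (hx : x ∈ P.U R₀) (a : Option κ) : o.W t 0 a x = o.A t a x := by
  simpa using W_end h H (o := o) ht 0 hx (map_zero _) a

variable (hR : R₀ ≤ R) (hl : P.Lit o R)
include hR hl

theorem adm_sl : P.D.Adm (P.sl o (R + 1) t) := by
  have k := admOn_univ.2 ((cyD P.D).adm_sq_of_band (θ := fun _ => P.sg * (R + 1)) contDiff_const
    (J := {s | R₀ < P.sg * s}) (fun _ => by rw [mem_ofPred_eq, sg_sg]; linarith)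
    ((admOn_pb H h ht (adm0 ((pt0 o 0 ht).ad0 H))).mono fun z hz => hz.2))
  refine ⟨admOn_univ.1 (admOn_same isOpen_univ (fun _ _ => rfl) (fun _ _ _ => rfl)
    (fun _ _ => rfl) k (fun a z _ => ?_) (fun z _ => (add_zero _).symm) (.inl rfl)), hl.tmp t ht⟩
  cases a with
  | none => exact (hl.tmp t ht z.1).trans (by simp [Tmp64.sw]; rfl)
  | some a => exact (one_smul _ _).symm

/-- closeness on the cylinder and on the end -/
theorem cl_iff {O : Set (P.Y.M × ℝ)} (hO : IsOpen O) (hs : ∀ z ∈ O, R < P.sg * z.2)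
    {c : Cfg M (Option κ) lam r} {U : M → CL c.m.V o.m.V} {V : P.Y.M × ℝ → CL c.m.V o.m.V}
    (e : ∀ z ∈ O, V z = U (P.K.ψ z)) {ζ : Circle} {η : ℝ} :
    Cl P.D.Z (P.K.pb (noz c)) (cy (P.sl o (R + 1) t)) V (fun _ => ζ) O k η ↔
      Cl 𝔉.F0 c (bt o t) U (fun _ => ζ) (P.K.ψ '' O) k η := by
  have f := (fRel0 H h).mono hO fun z hz => hR.trans_lt (hs z hz)
  have l := fun z hz => lit_eq hl ht (hs z hz) z.1
  simp only [show ∀ z : P.Y.M × ℝ, P.pt (P.sg * z.2) z.1 = P.K.ψ z from fun z => by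
    rw [End.pt, sg_sg]] at l
  have ev := fun z (hz : z ∈ O) => (hO.eventually_mem hz).mono e
  have e1 : ∀ a, ∀ z ∈ O, dA P.D.Z (P.K.pb (noz c)) (cy (P.sl o (R + 1) t)) V a z =
      dA 𝔉.F0 c (bt o t) U a (P.K.ψ z) := fun a z hz => by
    have := f.D hz a (ev z hz)
    show (P.D.Z.D a V z + o.W t 0 a (P.pt (R + 1) z.1) ∘L V z - V z ∘L c.W a (P.K.ψ z)) ∘L
      trn (V z) = _
    rw [this, e z hz, ← (l z hz).2.2.2.1, W0_end H h ht (mem_U h le_rfl (hR.trans_lt (hs z hz)))]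
    rfl
  have e2 : ∀ z ∈ O, dP (P.K.pb (noz c)) (cy (P.sl o (R + 1) t)) V ζ z =
      dP c (bt o t) U ζ (P.K.ψ z) := fun z hz => by
    show cs o.m.J ζ (V z (c.Φ (P.K.ψ z))) - o.Φ0 (P.pt (R + 1) z.1) = _
    rw [e z hz, ← (l z hz).2.2.2.2]
    rfl
  refine ⟨fun k => ⟨f.isOpen_image, f.iso0_push ⟨fun z hz => (k.iso.su z hz).congr_of_eventuallyEq
    (EventuallyEq.symm (ev z hz)), fun z hz => ?_, fun z hz => e z hz ▸ k.iso.J z hz,
    fun z hz a => ?_, fun z hz s => ?_⟩, fun a => (lb_iff f (e1 a)).1 (k.A a),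
    (lb_iff f e2).1 k.P⟩, fun k => ⟨hO, ⟨fun z hz => (f.sm hz (k.iso.su _ ⟨z, hz, rfl⟩)
      ).congr_of_eventuallyEq (ev z hz), fun z hz => ?_,
      fun z hz => (e z hz).symm ▸ k.iso.J _ ⟨z, hz, rfl⟩, fun z hz a => ?_, fun z hz s => ?_⟩,
      fun a => (lb_iff f (e1 a)).2 (k.A a), (lb_iff f e2).2 k.P⟩⟩
  · dsimp only; rw [← e z hz, (l z hz).1]; exact k.iso.iso z hz
  · dsimp only; rw [← e z hz, (l z hz).2.1]; exact k.iso.ρ z hz a
  · dsimp only; rw [← e z hz, (l z hz).2.2.1]; exact k.iso.j z hz s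
  · have := k.iso.iso _ ⟨z, hz, rfl⟩
    rw [← e z hz, (l z hz).1] at this; exact this
  · have := k.iso.ρ _ ⟨z, hz, rfl⟩ a
    rw [← e z hz, (l z hz).2.1] at this; exact this
  · have := k.iso.j _ ⟨z, hz, rfl⟩ s
    rw [← e z hz, (l z hz).2.2.1] at this; exact this

omit H h ht hR hl in
theorem mem_win {s ρ : ℝ} {z : P.Y.M × ℝ} : z ∈ win P.Y.M (P.sg * s) ρ ↔ |P.sg * z.2 - s| < ρ := by
  rcases sg_cases P with k | k <;>
    simp only [k.2, mem_prod, mem_univ, true_and, mem_Ioo, abs_lt] <;> constructor <;>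
    rintro ⟨a, b⟩ <;> constructor <;> linarith

theorem eb_cl {c : Cfg M (Option κ) lam r} (hc : Adm0 c 𝔉.B (𝔉.G t))
    {v : P.Y.M × ℝ → CL c.m.V o.m.V} {ζ : Circle} {d R' C s : ℝ} (hR' : R + 1 ≤ R')
    (e : P.EB c (P.sl o (R + 1) t) v ζ d R' k C) (hs : R' ≤ s) :
    Cl P.D.Z (P.K.pb (noz c)) (cy (P.sl o (R + 1) t)) v (fun _ => ζ) (win P.Y.M (P.sg * s) 1) k
      (C * exp (-d * s)) :=
  cl_of_cls (adm_sl H h ht hR hl) ((admOn_pb H h ht hc).mono fun z hz => hR.trans_lt (by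
    linarith [(abs_lt.1 (mem_win.1 hz)).1])) ⟨(e s hs).op, (e s hs).m, (e s hs).A, (e s hs).P⟩

end one

section lim
variable {α : Type} {𝒰 : Ultrafilter α}

variable (𝒰) in
/-- first `i → 𝒰`, then `n → ∞` -/
def itU : Ultrafilter (α × ℕ) := (hyperfilter ℕ).bind fun n => 𝒰.map (·, n)

theorem ev_itU {p : α × ℕ → Prop} : (∀ᶠ q in (itU 𝒰 : Filter (α × ℕ)), p q) ↔
    ∀ᶠ n in (hyperfilter ℕ : Filter ℕ), ∀ᶠ i in (𝒰 : Filter α), p (i, n) := by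
  refine eventually_bind.trans ⟨fun k => k, fun k => k⟩

theorem fst_itU : Tendsto Prod.fst (itU 𝒰 : Filter (α × ℕ)) 𝒰 := fun _ hs =>
  ev_itU.2 (.of_forall fun _ => hs)

theorem hyp_top : Tendsto (Nat.cast : ℕ → ℝ) (hyperfilter ℕ) atTop :=
  tendsto_natCast_atTop_atTop.mono_left (hyperfilter_le_cofinite.trans Nat.cofinite_eq_atTop.le)

theorem ev_small {d : ℝ} (hd : 0 < d) (C : ℝ) {ε : ℝ} (hε : 0 < ε) :
    ∀ᶠ s in atTop, C * exp (-d * s) ≤ ε := by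
  have := (tendsto_exp_atBot.comp (tendsto_id.const_mul_atTop_of_neg (neg_lt_zero.2 hd))).const_mul C
  rw [mul_zero] at this
  exact this.eventually (ge_mem_nhds hε)

theorem iso0_pt {m m' : Md M (Option κ) lam} {O : Set M} {u : M → CL m.V m'.V}
    (h : ∀ x ∈ O, Iso0 I m m' {x} u) : Iso0 I m m' O u :=
  ⟨fun x hx => (h x hx).su x rfl, fun x hx => (h x hx).iso x rfl, fun x hx => (h x hx).J x rfl,
    fun x hx => (h x hx).ρ x rfl, fun x hx => (h x hx).j x rfl⟩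

variable {B : Base M (Option κ) lam} {l : Filter α} {O : Set M} {c : α → Cfg M (Option κ) lam r}
  {c₀ : Cfg M (Option κ) lam r} {u : ∀ i, M → CL (c i).m.V c₀.m.V} {ζ : α → Circle}
  {e : α → Option κ → Π x : M, TangentSpace I x}

theorem ulim_iso (h : ULim I B l O e c c₀ u ζ) (hc : ∀ᶠ i in l, (c i).m.OK I B) (h0 : c₀.m.OK I B)
    {x : M} (hx : x ∈ O) : ∀ᶠ q : α × M in l ×ˢ 𝓝 x, Iso0 I (c q.1).m c₀.m {q.2} (u q.1) := by
  obtain ⟨N, h1, h2, h3⟩ := h.m x hx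
  exact ((h3.and hc).prod_mk (h1.mem_nhds h2)).mono fun q hq =>
    (Iso0.of_mEq h1 hq.1.1 (OK.on hq.1.2 _) (OK.on h0 _)).mono (singleton_subset_iff.2 hq.2)

end lim

variable (X : Ends 𝔉 δ)

theorem nice_tail {V : Type} [NormedAddCommGroup V] [InnerProductSpace ℝ V] [CompleteSpace V]
    (k : ℕ) : ∀ {f : M → V}, Nice 𝔉.F0.toPre f → ∀ ε > 0, ∀ᶠ s in atTop,
      Lb 𝔉.F0.toPre {x | s < X.ψ x} k f ε := by
  have h0 : ∀ {f : M → V}, Nice 𝔉.F0.toPre f → ∀ ε > 0, ∀ᶠ s in atTop,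
      Lb 𝔉.F0.toPre {x | s < X.ψ x} 0 f ε := fun hf ε hε => by
    obtain ⟨C, hC⟩ := decay X hf
    refine (ev_small one_pos |C| hε).mono fun s hs x hx => ⟨hf.sm x, (hC x).trans (le_trans ?_ hs)⟩
    exact mul_le_mul (le_abs_self C) (exp_le_exp.2 (by linarith [hx.out])) (exp_pos _).le
      (abs_nonneg C)
  induction k with
  | zero => exact h0
  | succ k ih => exact fun hf ε hε => ((h0 hf ε hε).and
      (eventually_all.2 fun a => ih (hf.D a) ε hε)).mono fun _ h => h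

/-- exponential closeness to the base configuration on the sets `S s` -/
def TC (o : Ref 𝔉) (S : ℝ → Set M) (c : Cfg M (Option κ) lam r) (t : T) (V : M → CL c.m.V o.m.V)
    (θ : Circle) (d L : ℝ) (j : ℕ) (C : ℝ) : Prop :=
  ∀ s, L ≤ s → Cl 𝔉.F0 c (bt o t) V (fun _ => θ) (S s) j (C * exp (-d * s))

variable {o : Ref 𝔉} {R R' d : ℝ} {y₀ : Pnt o r} {α : Type} {𝒰 : Ultrafilter α}
  {c : α → Cfg M (Option κ) lam r} {t : α → T} {ζ ζ' : α → Circle}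
  {u : ∀ i, M → CL (c i).m.V o.m.V} (hl : X.Lit o R)
  (hc : ∀ᶠ i in (𝒰 : Filter α), t i ∈ 𝔉.Q ∧ Adm0 (c i) 𝔉.B (𝔉.G (t i)))
  (hu : ULim I 𝔉.B 𝒰 𝔉.Om (fun i => (𝔉.G (t i)).F.e) c y₀.cfg u ζ) {a : X.A} (ha : X.Act a)
include hl hc hu ha

/-- far out the local gauges are close to the base configuration -/
theorem cz_u (k : ℕ) : CZ 𝔉.F0 (itU 𝒰 : Filter (α × ℕ))
    (fun q => (X.P a).K.ψ '' win (X.P a).Y.M ((X.P a).sg * q.2) 1) k (fun q => c q.1) (bt o y₀.t)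
    (fun q => u q.1) fun q _ => ζ q.1 := by
  have H := X.ok
  have h := X.okP a
  set O : ℕ → Set M := fun n => (X.P a).K.ψ '' win (X.P a).Y.M ((X.P a).sg * n) 1
  have hO : ∀ᶠ n in (hyperfilter ℕ : Filter ℕ), IsOpen (O n) ∧ (∀ x ∈ O n, δ * (n - 1) < X.ψ x) ∧
      ∃ K, IsCompact K ∧ K ⊆ (X.P a).U X.R ∧ O n ⊆ K := by
    filter_upwards [hyp_top.eventually_gt_atTop (X.R + 1)] with n hn
    have hi : ∀ z ∈ win (X.P a).Y.M ((X.P a).sg * n) 1, X.R < (X.P a).sg * z.2 := fun z hz => by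
      linarith [(abs_lt.1 (mem_win.1 hz)).1]
    have tm := fun z hz => (X.P a).K.tm_ψ z (mem_src h le_rfl (hi z hz))
    refine ⟨((fRel0 H h).mono (win_op _ _) hi).isOpen_image, forall_mem_image.2 fun z hz => ?_, _,
      (band h (R' := n + 1) (by linarith)).inter_right (isClosed_le (continuous_const
        (y := (n : ℝ) - 1)) (continuous_const.mul (X.P a).K.cont)),
      fun x hx => mem_U' h le_rfl (lt_of_lt_of_le (by linarith) hx.2),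
      forall_mem_image.2 fun z hz => ?_⟩
    · rw [h.wt _ (mem_U h le_rfl (hi z hz)), tm z hz]
      exact mul_lt_mul_of_pos_left (by linarith [(abs_lt.1 (mem_win.1 hz)).1]) X.δ0
    · have := abs_lt.1 (mem_win.1 hz)
      simp only [mem_inter_iff, mem_preimage, mem_ofPred_eq, Pi.mul_apply, tm z hz]
      exact ⟨⟨(hi z hz).le, by linarith⟩, by linarith⟩
  have iso : ∀ᶠ q in (itU 𝒰 : Filter (α × ℕ)), Iso0 I (c q.1).m o.m (O q.2) (u q.1) :=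
    ev_itU.2 (hO.mono fun n ⟨_, _, K, h1, h2, h3⟩ => (ev_compact h1 fun x hx =>
      ulim_iso hu (hc.mono fun _ k => k.2.ok) o.ok (ha (h2 hx))).mono fun i hi =>
        iso0_pt fun x hx => hi x (h3 hx))
  have z1 : ∀ {V : Type} [NormedAddCommGroup V] [NormedSpace ℝ V] [FiniteDimensional ℝ V]
      {f : α → M → V}, Cv I (𝒰 : Filter α) 𝔉.Om f (fun _ => 0) →
      ZZ 𝔉.F0.toPre (itU 𝒰 : Filter (α × ℕ)) (fun q => O q.2) k fun q => f q.1 :=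
    fun hf ε hε => ev_itU.2 (hO.mono fun n ⟨h0, _, K, h1, h2, h3⟩ =>
      ZZ.of_cv H.Om.2 h1 (h2.trans ha) h0 h3 k hf ε hε)
  have z2 : ∀ {V : Type} [NormedAddCommGroup V] [InnerProductSpace ℝ V] [CompleteSpace V]
      {f : M → V}, Nice 𝔉.F0.toPre f →
      ZZ 𝔉.F0.toPre (itU 𝒰 : Filter (α × ℕ)) (fun q => O q.2) k fun _ => f :=
    fun hf ε hε => ev_itU.2 ((hO.and (((tendsto_atTop_add_const_right _ (-1) hyp_top).const_mul_atTop
      X.δ0).eventually (nice_tail X k hf ε hε))).mono fun n hn => .of_forall fun _ =>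
        ⟨hn.1.1, hn.2.sub hn.1.2.1⟩)
  have sub : ∀ᶠ q in (itU 𝒰 : Filter (α × ℕ)), O q.2 ⊆ (X.P a).U X.R :=
    ev_itU.2 (hO.mono fun n ⟨_, _, K, _, h2, h3⟩ => .of_forall fun _ => h3.trans h2)
  refine CZ.mk iso (fun b => ((z1 (hu.A b)).sub (((z2 ((hs_iff H).1 y₀.hα).1).clm
    (Grp76.pj o.m.A b)).clm opL)).congr ?_) (((z1 (hu.Φ.sub (Cv.fixed' (y₀.ad0 H).sm) |>.congr'
      H.Om.2 (.of_forall fun _ _ _ => rfl) fun x _ => (sub_self _).symm)).add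
      (z2 ((hs_iff H).1 y₀.hφ).1)).congr' fun q x => ?_)
  · filter_upwards [iso, sub, fst_itU.eventually hc] with q h1 h2 h3 x hx
    have e1 : y₀.cfg.W b x = o.A y₀.t b x + opL (y₀.α x b) :=
      W_end h H y₀.ht _ (h2 hx) (y₀.pα H x) b
    have e2 : opL (y₀.α x b) ∘L o.m.p x = opL (y₀.α x b) :=
      Wz78.g_p' o.ok (idx_mem (y₀.pα H x) b)
    rw [← (h1.iso x hx).tgt, ad_trn] at e2
    rw [← Pre.D_def, D_end H h h3.1 (h2 hx), e1, Grp76.pj_apply]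
    exact (alg _ _ _ _ _).trans (congrArg _ (by rw [add_sub_cancel_left, e2]))
  · show cs o.m.J (ζ q.1) (u q.1 x ((c q.1).Φ x)) - o.Φ0 x =
      cs o.m.J (ζ q.1) (u q.1 x ((c q.1).Φ x)) - (o.Φ0 x + y₀.φ x) + y₀.φ x
    abel

/-- **the gauge at infinity on one end** -/
theorem one_end (hR : R + 1 ≤ R') (hd : 0 < d) (ht : Tendsto t 𝒰 (𝓝 y₀.t))
    (hs : ∀ (s : (X.P a).Y.M × ℝ → CL o.m.V o.m.V) (ζ : Circle),
      EqOn (X.P a).D.B (X.P a).D.Z univ (cy ((X.P a).sl o (R + 1) y₀.t))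
        (cy ((X.P a).sl o (R + 1) y₀.t)) s ζ → ∀ t' ∈ 𝔉.Q,
      EqOn (X.P a).D.B (X.P a).D.Z univ (cy ((X.P a).sl o (R + 1) t'))
        (cy ((X.P a).sl o (R + 1) t')) s ζ) {v : ∀ i, (X.P a).Y.M × ℝ → CL (c i).m.V o.m.V}
    (h1 : ∀ᶠ i in (𝒰 : Filter α), ∀ j, ∃ C,
      (X.P a).EB (c i) ((X.P a).sl o (R + 1) (t i)) (v i) (ζ' i) d R' j C)
    (h2 : ∀ j, ∃ C, ∀ᶠ i in (𝒰 : Filter α),
      (X.P a).EB (c i) ((X.P a).sl o (R + 1) (t i)) (v i) (ζ' i) d R' j C) {ξ : Circle}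
    (hξ : Tendsto (fun i => ζ i / ζ' i) 𝒰 (𝓝 ξ)) : ∃ V : ∀ i, M → CL (c i).m.V o.m.V,
    (∀ᶠ i in (𝒰 : Filter α), ∀ j, ∃ C, TC o (X.P a).U (c i) (t i) (V i) (ξ * ζ' i) d R' j C) ∧
    (∀ j, ∃ C, ∀ᶠ i in (𝒰 : Filter α), TC o (X.P a).U (c i) (t i) (V i) (ξ * ζ' i) d R' j C) ∧
    ∀ ε > 0, ∀ᶠ n : ℕ in hyperfilter ℕ, ∀ᶠ i in (𝒰 : Filter α), ∀ (s : ℝ) y, |s - (n : ℝ)| < 1 / 2 →
      ‖V i ((X.P a).pt s y) ∘L ad (u i ((X.P a).pt s y)) - o.m.p ((X.P a).pt s y)‖ ≤ ε := by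
  have H := X.ok
  have h := X.okP a
  have l := hl.lit a
  have hβ := adm_sl H h y₀.ht hl.le l
  have hn : ∀ᶠ q in (itU 𝒰 : Filter (α × ℕ)), ∀ z ∈ win (X.P a).Y.M ((X.P a).sg * q.2) 1,
      R < (X.P a).sg * z.2 := ev_itU.2 ((hyp_top.eventually_ge_atTop (R + 1)).mono fun n hn =>
    .of_forall fun _ z hz => by linarith [(abs_lt.1 (mem_win.1 hz)).1])
  have ev : ∀ i {O : Set _}, (∀ z ∈ O, R < (X.P a).sg * z.2) → ∀ z ∈ O,
      v i z = (v i ∘ (X.P a).K.ψ.symm) ((X.P a).K.ψ z) := fun i _ k z hz =>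
    congrArg (v i) ((X.P a).K.ψ.left_inv (mem_src h hl.le (k z hz))).symm
  have cv : ∀ k, CZ 𝔉.F0 (itU 𝒰 : Filter (α × ℕ)) (fun q => (X.P a).K.ψ ''
      win (X.P a).Y.M ((X.P a).sg * q.2) 1) k (fun q => c q.1) (bt o y₀.t)
      (fun q => v q.1 ∘ (X.P a).K.ψ.symm) fun q _ => ζ' q.1 := fun k =>
    cz_shift (ht.comp fst_itU) fun ε hε => let ⟨C, hC⟩ := h2 k
      ev_itU.2 (((ev_itU.1 hn).and (hyp_top.eventually ((ev_small hd C hε).and
        (eventually_ge_atTop R')))).mono fun n hn => (hn.1.and (hC.and hc)).mono fun i hi =>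
          (cl_iff H h hi.2.2.1 hl.le l (win_op _ _) hi.1 (ev _ hi.1)).1 ((eb_cl H h hi.2.2.1 hl.le l
            hi.2.2.2 hR hi.2.1 hn.2.2).mono (win_op _ _) Subset.rfl le_rfl hn.2.1))
  obtain ⟨g, ξ', g1, g2, g3⟩ := step_fam hβ hβ (𝒰 := itU 𝒰) (s := fun q => (X.P a).sg * q.2)
    (c := fun q => (X.P a).K.pb (noz (c q.1))) (u := fun q => v q.1)
    (u' := fun q z => u q.1 ((X.P a).K.ψ z)) (ζ := fun q => ζ' q.1) (ζ' := fun q => ζ q.1)
    one_half_lt_one one_pos ((hn.and (fst_itU.eventually hc)).mono fun q hq =>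
      (admOn_pb H h hq.2.1 hq.2.2).mono fun z hz => hl.le.trans_lt (hq.1 z hz))
    (fun k ε hε => (hn.and (cv k ε hε)).mono fun q hq =>
      (cl_iff H h y₀.ht hl.le l (win_op _ _) hq.1 (ev _ hq.1)).2 hq.2)
    fun k ε hε => (hn.and (cz_u X hl hc hu ha k ε hε)).mono fun q hq =>
      (cl_iff H h y₀.ht hl.le l (win_op _ _) hq.1 fun _ _ => rfl).2 hq.2
  obtain rfl := tendsto_nhds_unique g2 (hξ.comp fst_itU)
  let V : ∀ i, M → CL (c i).m.V o.m.V := fun i x =>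
    g ((X.P a).K.ψ.symm x).1 ∘L v i ((X.P a).K.ψ.symm x)
  have eV : ∀ i z, R < (X.P a).sg * z.2 → g z.1 ∘L v i z = V i ((X.P a).K.ψ z) := fun i z hz => by
    simp only [V, (X.P a).K.ψ.left_inv (mem_src h hl.le hz)]
  have key : ∀ j, ∃ A, ∀ i C, t i ∈ 𝔉.Q ∧ Adm0 (c i) 𝔉.B (𝔉.G (t i)) →
      (X.P a).EB (c i) ((X.P a).sl o (R + 1) (t i)) (v i) (ζ' i) d R' j C →
      TC o (X.P a).U (c i) (t i) (V i) (ξ' * ζ' i) d R' j (|A| * |C|) := fun j => by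
    obtain ⟨A, hA⟩ := stb_cl (r := 0) (D := (X.P a).D) (m := ((X.P a).sl o (R + 1) y₀.t).m)
      (g := g) ξ' (fun x => g1.iso.su x trivial) j
    refine ⟨A, fun i C k1 k2 s hs' => ?_⟩
    have k3 := adm_sl H h k1.1 hl.le l
    have k4 := (stb_iff h.D k3).2 (hs _ _ ((stb_iff h.D hβ).1 g1) _ k1.1)
    have hi : ∀ z ∈ {z : (X.P a).Y.M × ℝ | s < (X.P a).sg * z.2}, R < (X.P a).sg * z.2 :=
      fun z hz => by linarith [hz.out]
    rw [U_eq h (by linarith [hl.le])]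
    refine (cl_iff H h k1.1 hl.le l (isOpen_hi _ s) hi fun z hz => eV i z (hi z hz)).1
      (Cl.of_local (isOpen_hi _ s) fun z hz => ⟨_, _, _, mem_win.2 (by simp), .rfl, .rfl,
        (hA _ _ _ k3 k4 _ _ _ _ _ (eb_cl H h k1.1 hl.le l k1.2 hR k2 (hs'.trans hz.out.le))).mono
          (win_op _ _) Subset.rfl le_rfl ?_⟩)
    rw [abs_mul, abs_of_pos (exp_pos _), mul_assoc]
    have : exp (-d * ((X.P a).sg * z.2)) ≤ exp (-d * s) :=
      exp_le_exp.2 (by nlinarith [hz.out])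
    gcongr
    exact le_abs_self A
  choose A hA using key
  refine ⟨V, (h1.and hc).mono fun i hi j => let ⟨C, hC⟩ := hi.1 j; ⟨_, hA j i C hi.2 hC⟩,
    fun j => let ⟨C, hC⟩ := h2 j; ⟨_, (hC.and hc).mono fun i hi => hA j i C hi.2 hi.1⟩,
    fun ε hε => ?_⟩
  have h5 := g3 0
  have h6 := BB.fst (F := (X.P a).D.F.toPre) h5.op 0 (φ := g)
    fun _ => sm_slice (t := 0) (g1.iso.su _ trivial)
  filter_upwards [ev_itU.1 ((h6.compZ h5.ad).le hε), hyp_top.eventually_ge_atTop (R + 1)]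
    with n k1 k2
  refine k1.mono fun i hi s y hs => ?_
  have k3 : R < s := by linarith [(abs_lt.1 hs).1]
  have k4 := hi (y, (X.P a).sg * s) (mem_win.2 (by rwa [sg_sg]))
  have k5 : g y ∘L ad (g y) = o.m.p ((X.P a).pt (R + 1) y) := (g1.iso.iso (y, 0) trivial).tgt
  rw [End.pt, ← eV i _ (by rwa [sg_sg]), ← End.pt, (lit_eq l y₀.ht k3 y).1, ← k5]
  refine le_of_eq_of_le (congrArg _ ?_) k4
  beta_reduce
  rw [ad_sub, ad_comp, ad_ad, ContinuousLinearMap.comp_sub]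
  rfl

end Crest.Agent.X212.End14
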