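import Crest.Agent.X212.End14.Free
import Crest.Agent.X212.End3.Dec

/-! Decay of Sobolev functions, the Hardy inequality on the ends, based automorphisms. -/

set_option autoImplicit false
set_option linter.unusedSectionVars false
noncomputable section
open scoped Manifold ContDiff Topology InnerProductSpace ENNReal
open MeasureTheory Set Function Filter Real

namespace Crest.Agent.X212.End14
open An An.Pre Sob92 Mod61 Nd18 Eqv71 Nk89 Cyf70 End3
open Grp76 (dif Ph Nice hs_iff)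

section one
variable {V : Type} [NormedAddCommGroup V] [InnerProductSpace ℝ V]
  {φ b : ℝ → V} {δ R C : ℝ} (hδ : 0 < δ) (hd : ∀ t, R ≤ t → HasDerivAt φ (b t) t)
  (hb : ContinuousOn b (Ici R)) (hC : ∀ t, R ≤ t → ‖b t‖ ≤ C * exp (-δ * t))
  (h0 : ∀ ε > 0, ∃ᶠ t in atTop, ‖φ t‖ ≤ ε)
include hδ hd hC h0

theorem dec1 {t : ℝ} (ht : R ≤ t) : ‖φ t‖ ≤ C / δ * exp (-δ * t) := by
  refine le_of_forall_pos_le_add fun ε hε => ?_
  obtain ⟨s, h1, h2⟩ := ((h0 ε hε).and_eventually (eventually_ge_atTop t)).exists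
  have C0 : 0 ≤ C := nonneg_of_mul_nonneg_left ((norm_nonneg _).trans (hC t ht)) (exp_pos _)
  have h3 := image_norm_le_of_norm_deriv_right_le_deriv_boundary (f := fun x => φ x - φ t) (f' := b)
    (a := t) (b := s)
    (fun x hx => ((hd x (ht.trans hx.1)).sub_const _).continuousAt.continuousWithinAt)
    (fun x hx => ((hd x (ht.trans hx.1)).sub_const _).hasDerivWithinAt)
    (B := fun x => C / δ * (exp (-δ * t) - exp (-δ * x))) (B' := fun x => C * exp (-δ * x))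
    (by simp) (fun x => ((((hasDerivAt_id' x).const_mul (-δ)).exp.const_sub
      (exp (-δ * t))).const_mul (C / δ)).congr_deriv (by field_simp))
    (fun x hx => hC x (ht.trans hx.1)) ⟨h2, le_rfl⟩
  have h4 : 0 ≤ C / δ * exp (-δ * s) := by positivity
  linarith [norm_sub_norm_le (φ t) (φ s), norm_sub_rev (φ t) (φ s)]

include hb in
/-- the Hardy inequality on a half line -/
theorem hardy1 : ∫⁻ t in Ioi R, ENNReal.ofReal (exp (2 * (δ * t)) * ‖φ t‖ ^ 2) ≤
    ENNReal.ofReal (C ^ 2 / δ ^ 3) +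
      ENNReal.ofReal (δ⁻¹ ^ 2) * ∫⁻ t in Ioi R, ENNReal.ofReal (exp (2 * (δ * t)) * ‖b t‖ ^ 2) := by
  have hφ : ContinuousOn φ (Ici R) := fun t ht => (hd t ht).continuousAt.continuousWithinAt
  have ci : ∀ {f : ℝ → V}, ContinuousOn f (Ici R) → ∀ T,
      IntegrableOn (fun t => exp (2 * (δ * t)) * ‖f t‖ ^ 2) (Icc R T) := fun h T =>
    ContinuousOn.integrableOn_Icc (((by fun_prop : Continuous fun t =>
      exp (2 * (δ * t))).continuousOn).mul ((h.mono Icc_subset_Ici_self).norm.pow 2))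
  have e : ∀ {f : ℝ → V}, ContinuousOn f (Ici R) → ∀ T, R ≤ T →
      ∫⁻ t in Ioc R T, ENNReal.ofReal (exp (2 * (δ * t)) * ‖f t‖ ^ 2) =
        ENNReal.ofReal (∫ t in R..T, exp (2 * (δ * t)) * ‖f t‖ ^ 2) := fun h T hT => by
    rw [intervalIntegral.integral_of_le hT, ofReal_integral_eq_lintegral_ofReal
      ((ci h T).mono_set Ioc_subset_Icc_self) (.of_forall fun _ => by positivity)]
  rw [← (iUnion_Ioc_eq_Ioi_self_iff (f := fun n : ℕ => max R n)).2 fun x _ =>
    (exists_nat_ge x).imp fun n hn => le_max_of_le_right hn,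
    setLIntegral_iUnion_of_directed _ (Monotone.directed_le fun m n h =>
      Ioc_subset_Ioc_right (max_le_max_left R (Nat.cast_le.2 h))), iSup_le_iff]
  intro n
  refine le_trans ?_ (add_le_add_right (mul_le_mul_right (lintegral_mono_set
    (subset_iUnion (fun n : ℕ => Ioc R (max R n)) n)) _) _)
  have hT := le_max_left R n
  generalize max R n = T at hT
  have h1 := intervalIntegral.integral_le_sub_of_hasDeriv_right_of_le hT
    (g := fun t => exp (2 * (δ * t)) * ‖φ t‖ ^ 2)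
    (g' := fun t => exp (2 * (δ * t)) * (2 * (δ * 1)) * ‖φ t‖ ^ 2 +
      exp (2 * (δ * t)) * (2 * ⟪φ t, b t⟫_ℝ))
    (φ := fun t => δ * (exp (2 * (δ * t)) * ‖φ t‖ ^ 2) - δ⁻¹ * (exp (2 * (δ * t)) * ‖b t‖ ^ 2))
    (((by fun_prop : Continuous fun t => exp (2 * (δ * t))).continuousOn).mul
      ((hφ.mono Icc_subset_Ici_self).norm.pow 2))
    (fun t ht => ((((hasDerivAt_id' t).const_mul δ).const_mul 2).exp.mul
      (hd t ht.1.le).norm_sq).hasDerivWithinAt)
    (by exact ((ci hφ T).const_mul δ).sub ((ci hb T).const_mul δ⁻¹)) fun t _ => by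
      have h2 : 0 ≤ δ⁻¹ * ‖δ • φ t + b t‖ ^ 2 := by positivity
      rw [norm_add_sq_real, norm_smul, real_inner_smul_left, Real.norm_of_nonneg hδ.le] at h2
      have h3 : δ⁻¹ * ((δ * ‖φ t‖) ^ 2 + 2 * (δ * ⟪φ t, b t⟫_ℝ) + ‖b t‖ ^ 2) =
        δ * ‖φ t‖ ^ 2 + 2 * ⟪φ t, b t⟫_ℝ + δ⁻¹ * ‖b t‖ ^ 2 := by field_simp
      nlinarith [mul_nonneg (exp_pos (2 * (δ * t))).le (h3 ▸ h2)]
  have h2 : exp (2 * (δ * T)) * ‖φ T‖ ^ 2 ≤ (C / δ) ^ 2 := by
    refine (mul_le_mul_of_nonneg_left (pow_le_pow_left₀ (norm_nonneg _)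
      (dec1 hδ hd hC h0 hT) 2) (exp_pos _).le).trans_eq ?_
    rw [mul_pow, ← exp_nat_mul, mul_left_comm, ← exp_add]
    simp
  have i := fun {f : ℝ → V} (h : ContinuousOn f (Ici R)) =>
    (intervalIntegrable_iff_integrableOn_Icc_of_le hT).2 (ci h T)
  rw [intervalIntegral.integral_sub ((i hφ).const_mul _) ((i hb).const_mul _),
    intervalIntegral.integral_const_mul, intervalIntegral.integral_const_mul] at h1
  rw [e hφ T hT, e hb T hT, ← ENNReal.ofReal_mul (by positivity)]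
  refine (ENNReal.ofReal_le_ofReal (le_of_mul_le_mul_left ?_ hδ)).trans ENNReal.ofReal_add_le
  have h3 : 0 ≤ exp (2 * (δ * R)) * ‖φ R‖ ^ 2 := by positivity
  refine (show _ ≤ (C / δ) ^ 2 + δ⁻¹ * ∫ t in R..T, exp (2 * (δ * t)) * ‖b t‖ ^ 2 by
    linarith).trans_eq ?_
  field_simp

end one

variable {E : Type} [NormedAddCommGroup E] [NormedSpace ℝ E] [FiniteDimensional ℝ E]
  [MeasurableSpace E] [BorelSpace E]
  {HM : Type} [TopologicalSpace HM] {I : ModelWithCorners ℝ E HM} [I.Boundaryless]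
  {M : Type} [TopologicalSpace M] [ChartedSpace HM M] [IsManifold I ∞ M]
  [MeasurableSpace M] [T2Space M] [BorelSpace M] [SecondCountableTopology M]
  {κ : Type} [Fintype κ] {lam : Type} [Fintype lam]
  {T : Type} [NormedAddCommGroup T] [NormedSpace ℝ T]
  {V : Type} [NormedAddCommGroup V] [InnerProductSpace ℝ V] [CompleteSpace V]
  {𝔉 : Fam I M (Option κ) lam T} {δ : ℝ}

section pt
variable {P : End 𝔉} {ψ : M → ℝ} {R L s : ℝ} (h : P.OK ψ δ R) (hL : R ≤ L)
include h hL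

theorem pt_U (hs : L < s) (y : P.Y.M) : P.pt s y ∈ P.U L :=
  mem_U h hL (by rwa [sg_sg])

/-- integration over an end -/
theorem lint_end {g : M → ℝ≥0∞} (hg : Measurable g) :
    ∫⁻ x in P.U L, g x ∂𝔉.G0.F.μ = ∫⁻ y, ∫⁻ s in Ioi L, g (P.pt s y) ∂volume ∂P.D.F.μ := by
  have hU := (isOpen_U P L).measurableSet
  have ms := P.K.ψ.open_source.measurableSet
  have am := P.K.ψ.continuousOn.aemeasurable (μ := P.D.Z.μ) ms
  have e : ∀ z, P.K.ψ.source.indicator (fun z => (P.U L).indicator g (P.K.ψ z)) z =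
      (Ioi L).indicator (fun s => g (P.pt s z.1)) (P.sg * z.2) := fun z => by
    by_cases hz : L < P.sg * z.2
    · rw [indicator_of_mem (mem_src h hL hz), indicator_of_mem (mem_U h hL hz),
        indicator_of_mem (mem_Ioi.2 hz), End.pt, sg_sg]
    · rw [indicator_of_notMem (mt mem_Ioi.1 hz)]
      exact indicator_apply_eq_zero.2 fun k => indicator_of_notMem
        (fun k' => hz (P.K.tm_ψ z k ▸ k'.2)) _
  rw [← inter_eq_left.2 (show P.U L ⊆ P.K.ψ.target from fun _ k => k.1),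
    ← Measure.restrict_restrict hU, ← P.K.iso.μ, ← lintegral_indicator hU,
    lintegral_map' (hg.indicator hU).aemeasurable am, ← lintegral_indicator ms]
  refine (lintegral_prod _ ((aemeasurable_indicator_iff ms).2
    ((hg.indicator hU).comp_aemeasurable am))).trans (lintegral_congr fun y => ?_)
  refine (lintegral_congr fun s => e (y, s)).trans ?_
  rw [← lintegral_indicator measurableSet_Ioi]
  rcases sg_cases P with k | k <;> simp only [k.2, one_mul, neg_one_mul]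
  exact lintegral_neg_eq_self _

theorem deriv_pt {f : M → V} (hf : Sm I f) (hs : L < s) (y : P.Y.M) :
    HasDerivAt (fun s => f (P.pt s y)) (P.sg • 𝔉.G0.F.D none f (P.pt s y)) s := by
  have hz : (y, P.sg * s) ∈ P.K.ψ.source := mem_src h hL (by rwa [sg_sg])
  have h1 := (P.K.rel.sm hz (hf _)).md
  have h2 := (diff_slice_snd h1).hasDerivAt
  rw [← D_none_at P.D.F.toPre h1] at h2
  have h3 := h2.scomp s ((hasDerivAt_id' s).const_mul P.sg)
  rw [mul_one] at h3
  exact (P.K.rel.D hz none (u' := f) (.of_forall fun _ => rfl)) ▸ h3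

omit hL in
theorem W_end (H : 𝔉.OK) {o : Ref 𝔉} {t : T} (ht : t ∈ 𝔉.Q) (α : M → Fm (Option κ) o.m.A) {x : M}
    (hx : x ∈ P.U R) (hα : o.P1 x (α x) = α x) (a : Option κ) :
    o.W t α a x = o.A t a x + opL (α x a) := by
  rw [W_apply, Fam.W0, (h.cf t ht x hx).1, (h.cf t ht x hx).2, ← idx_sum hα a,
    ← (o.connA H.B t).cc.proj a x]
  simp [(h.S t ht x hx _ _).1]

theorem exists_pt {x : M} (hx : x ∈ P.U L) : ∃ s y, L < s ∧ x = P.pt s y := by
  obtain ⟨z, hz, rfl⟩ := U_eq h hL ▸ hx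
  exact ⟨_, z.1, hz, by rw [End.pt, sg_sg]⟩

omit h hL in
theorem lit_eq {o : Ref 𝔉} (hl : P.Lit o R) {t : T} (ht : t ∈ 𝔉.Q) (hs : R < s) (y : P.Y.M) :
    o.m.p (P.pt s y) = o.m.p (P.pt (R + 1) y) ∧
    (∀ a, o.m.ρ a (P.pt s y) = o.m.ρ a (P.pt (R + 1) y)) ∧
    o.m.j (P.pt s y) = o.m.j (P.pt (R + 1) y) ∧
    (∀ a, o.W t 0 a (P.pt s y) = o.W t 0 a (P.pt (R + 1) y)) ∧
    o.Φ0 (P.pt s y) = o.Φ0 (P.pt (R + 1) y) := by
  obtain ⟨h1, h2, h3, -⟩ := Cfg.mk.inj (hl.eq t ht s hs)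
  obtain ⟨-, -, h4, h5, h6⟩ := Md.mk.inj h1
  exact ⟨congrFun (eq_of_heq h4) y, fun a => congrFun (congrFun (eq_of_heq h5) a) y,
    congrFun (eq_of_heq h6) y, fun a => congrFun (congrFun (eq_of_heq h2) a) y,
    congrFun (eq_of_heq h3) y⟩

theorem pre_U : IsPreconnected (P.U L) := by
  have := h.con
  have e : {z : P.Y.M × ℝ | L < P.sg * z.2} = (fun z => (z.1, P.sg * z.2)) '' univ ×ˢ Ioi L := by
    ext z
    exact ⟨fun k => ⟨(z.1, P.sg * z.2), ⟨trivial, k⟩, by simp only [sg_sg]⟩,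
      by rintro ⟨z, k, rfl⟩; exact k.2.trans_eq (sg_sg P z.2).symm⟩
  rw [U_eq h hL]
  refine IsPreconnected.image ?_ _ (P.K.ψ.continuousOn.mono fun _ => mem_src h hL)
  exact e ▸ (isPreconnected_univ.prod isPreconnected_Ioi).image _ (by fun_prop)

end pt

variable (X : Ends 𝔉 δ)
include X

/-- Sobolev functions decay like the weight -/
theorem decay {u : M → V} (hu : Nice 𝔉.F0.toPre u) : ∃ C, ∀ x, ‖u x‖ ≤ C * exp (-X.ψ x) := by
  obtain ⟨g, rfl⟩ := (hs_iff X.ok (p := triv M V)).2 ⟨hu, fun _ => rfl⟩ 4 le_rfl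
  obtain ⟨D, hD⟩ := Prm93.Cb_unif X.dψ
  have S := Sup.of_tame X.tame.choose_spec
  have e : ∀ g x, 𝔉.G0.F.val 4 _ (X.wt.toWtP.cj 4 (triv M V) hD g) x =
      exp (X.ψ x) • 𝔉.F0.val 4 _ g x := fun g x => by
    induction g using H_ind with
    | hP => exact isClosed_eq (by fun_prop) (by fun_prop)
    | h u => exact (congrFun ((congrArg _ (RepT_toH (X.wt.toWtP.rep_cj 4 _ hD) u)).trans
        (val_toH S le_rfl _)) x).trans (by rw [val_toH X.ok.sup le_rfl])
  refine ⟨√|X.tame.choose 0| * ‖X.wt.toWtP.cj 4 (triv M V) hD g‖, fun x => ?_⟩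
  rw [exp_neg, ← div_eq_mul_inv, le_div_iff₀' (exp_pos _), ← norm_smul_of_nonneg (exp_pos _).le,
    ← e]
  exact norm_val_le S le_rfl _ x

theorem memLp_iff {u : M → V} (hu : Continuous u) : MemLp u 2 𝔉.F0.μ ↔
    ∫⁻ x, ENNReal.ofReal (exp (2 * X.ψ x) * ‖u x‖ ^ 2) ∂𝔉.G0.F.μ < ⊤ := by
  have c : Continuous fun x => ‖u x‖ ^ 2 := by fun_prop
  rw [memLp_two_iff_integrable_sq_norm hu.aestronglyMeasurable, Integrable,
    and_iff_right c.aestronglyMeasurable,
    hasFiniteIntegral_iff_ofReal (.of_forall fun _ => by positivity), X.wt.μ, wm,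
    lintegral_withDensity_eq_lintegral_mul _ (meas_w X.wt.sm.continuous)
      c.measurable.ennreal_ofReal]
  simp only [Pi.mul_apply, ENNReal.ofReal_mul (exp_pos _).le]

/-- **the Hardy inequality on the ends** -/
theorem hardy {L : ℝ} (hL : X.R ≤ L) {f b : M → V} (hf : Sm I f) (hb : Nice 𝔉.F0.toPre b)
    (e : ∀ a, ∀ x ∈ (X.P a).U L, 𝔉.F0.D none f x = b x)
    (h0 : ∀ a y, ∀ ε > 0, ∃ᶠ s in atTop, ‖f ((X.P a).pt s y)‖ ≤ ε) : MemLp f 2 𝔉.F0.μ := by
  have c := X.wt.sm.continuous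
  have hL' : X.R ≤ L + 1 := by linarith
  have m : ∀ {u : M → V}, Continuous u → Continuous fun x => exp (2 * X.ψ x) * ‖u x‖ ^ 2 :=
    fun hu => by fun_prop
  obtain ⟨C, hC⟩ := decay X hb
  have hb' := (memLp_iff X hb.sm.continuous).1 (hb.2 0)
  rw [memLp_iff X hf.continuous, ← lintegral_add_compl _ (isOpen_iUnion fun a =>
    isOpen_U (X.P a) (L + 1)).measurableSet]
  refine ENNReal.add_lt_top.2 ⟨(lintegral_iUnion_le _ _).trans_lt ?_, ?_⟩
  swap
  · exact (ContinuousOn.integrableOn_compact (core X hL') (m hf.continuous).continuousOn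
      ).lintegral_lt_top
  rw [tsum_fintype]
  refine ENNReal.sum_lt_top.2 fun a _ => ?_
  have h := X.okP a
  have eψ : ∀ s y, L < s → X.ψ ((X.P a).pt s y) = δ * s := fun s y hs => by
    rw [h.wt _ (U_mono _ hL (pt_U h hL hs y)), tm_pt h (hL.trans hs.le), sg_sg]
  have ns : ∀ v : V, ‖(X.P a).sg • v‖ = ‖v‖ := fun v => by
    rcases sg_cases (X.P a) with k | k <;> simp [k.2]
  have key : ∀ y, ∫⁻ s in Ioi (L + 1), ENNReal.ofReal (exp (2 * X.ψ ((X.P a).pt s y)) *
      ‖f ((X.P a).pt s y)‖ ^ 2) ≤ ENNReal.ofReal (C ^ 2 / δ ^ 3) + ENNReal.ofReal (δ⁻¹ ^ 2) *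
      ∫⁻ s in Ioi (L + 1), ENNReal.ofReal (exp (2 * X.ψ ((X.P a).pt s y)) *
        ‖b ((X.P a).pt s y)‖ ^ 2) := fun y => by
    have cp : ContinuousOn (fun s => (X.P a).pt s y) (Ici (L + 1)) :=
      (X.P a).K.ψ.continuousOn.comp (by fun_prop) fun s hs => src_of h (by
        rw [sg_sg]; exact hL'.trans hs)
    have := hardy1 (φ := fun s => f ((X.P a).pt s y)) (R := L + 1) (C := C)
      (b := fun s => (X.P a).sg • b ((X.P a).pt s y)) X.δ0 (fun s hs => by
        rw [← e a _ (pt_U h hL (by linarith) y), X.wt.toWtP.D]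
        exact deriv_pt h hL hf (by linarith) y)
      ((hb.sm.continuous.comp_continuousOn cp).const_smul _)
      (fun s hs => by rw [ns, neg_mul, ← eψ s y (by linarith)]; exact hC _) (h0 a y)
    have k : ∀ g : ℝ → ℝ, ∫⁻ s in Ioi (L + 1), ENNReal.ofReal (exp (2 * X.ψ ((X.P a).pt s y)) *
        g s) = ∫⁻ s in Ioi (L + 1), ENNReal.ofReal (exp (2 * (δ * s)) * g s) := fun g =>
      setLIntegral_congr_fun measurableSet_Ioi fun s hs => by
        simp only [eψ s y (by linarith [mem_Ioi.1 hs])]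
    simpa only [ns, k] using this
  have : IsFiniteMeasure (X.P a).D.F.μ := CompactSpace.isFiniteMeasure
  rw [lint_end h hL' (m hf.continuous).measurable.ennreal_ofReal]
  refine (lintegral_mono key).trans_lt ?_
  rw [lintegral_add_left measurable_const, lintegral_const_mul' _ _ ENNReal.ofReal_ne_top,
    ← lint_end h hL' (m hb.sm.continuous).measurable.ennreal_ofReal, lintegral_const]
  exact ENNReal.add_lt_top.2 ⟨ENNReal.mul_lt_top ENNReal.ofReal_lt_top (measure_lt_top _ _),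
    ENNReal.mul_lt_top ENNReal.ofReal_lt_top ((setLIntegral_le_lintegral _ _).trans_lt hb')⟩

theorem act_of {a : X.A} {x : M} (hx : x ∈ (X.P a).U X.R) (h : x ∈ 𝔉.Om) : X.Act a :=
  (pre_U (X.okP a) le_rfl).subset_isClopen X.ok.Om ⟨x, hx, h⟩

section ale
variable {o : Ref 𝔉} {R : ℝ} {r : ℕ} {y y' : Pnt o r} {w : M → CL o.m.V o.m.V} {c : Circle}

omit X in
variable (y y' w) in
/-- the inhomogeneous term -/
def rhs (a : Option κ) (x : M) : o.m.A :=
  hsL (𝔉.Om.indicator w x * opL (y.α x a) - opL (y'.α x a) * 𝔉.Om.indicator w x)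

variable (e : y.Eq y' w c) (ht : y'.t = y.t)
include e ht

theorem nice_rhs (a : Option κ) : Nice 𝔉.F0.toPre (rhs y y' w a) := by
  have cw := (e.mi X.ok ht).cb
  have n : ∀ y : Pnt o r, Nice 𝔉.F0.toPre fun x => opL (y.α x a) := fun y =>
    (((hs_iff X.ok).1 y.hα).1.clm (Grp76.pj o.m.A a)).clm opL
  have h1 := (n y).bil (ContinuousLinearMap.mul ℝ (En (Fin o.m.N))) cw
  have h2 := (n y').bil' (ContinuousLinearMap.mul ℝ (En (Fin o.m.N))) cw
  exact (h1.sub h2).clm hsL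

theorem D_dif (a : Option κ) (x : M) :
    𝔉.F0.D a (dif o w) x = (-Wz78.adcL (o.A y.t a x)) (dif o w x) + rhs y y' w a x := by
  have h := X.ok
  rw [dif, D_ind _ h.Om, rhs]
  by_cases hx : x ∈ 𝔉.Om
  · have sw : Wz78.SA I w x := e.m.su.contMDiffAt (h.Om.2.mem_nhds hx)
    have sp : Wz78.SA I o.m.p x := o.ok.sp x
    have h1 : 𝔉.F0.D a w x + (o.A y.t a x + opL (y'.α x a)) * w x -
      w x * (o.A y.t a x + opL (y.α x a)) = 0 := e.th h ht x hx a
    have h2 : 𝔉.G0.F.D a o.m.p x + (o.A y.t a x * o.m.p x - o.m.p x * o.A y.t a x) = 0 :=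
      (o.connA h.B y.t).cc.par a x
    have h3 : 𝔉.F0.D a (fun x => hsL (w x - o.m.p x)) x = hsL (𝔉.F0.D a w x - 𝔉.F0.D a o.m.p x) :=
      (dv_clm hsL (Wz78.SA.md (sw.sub sp))).trans (congrArg _ (dv_sub sw.md sp.md))
    rw [← X.wt.toWtP.D] at h2
    simp only [indicator_of_mem hx]
    rw [h3, eq_neg_of_add_eq_zero_left h2, eq_sub_of_add_eq (sub_eq_zero.1 h1)]
    refine Wz78.opL_inj ?_
    simp only [map_add, Wz78.opL_hsL, _root_.neg_apply, map_neg, Wz78.adcL_apply,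
      Wz78.opL_adc]
    noncomm_ring
  · simp only [indicator_of_notMem hx, map_zero, zero_mul, mul_zero, sub_self, add_zero]

/-- **an equivalence which tends to the identity along the ends is based** -/
theorem ale (hl : X.Lit o R) (h0 : ∀ a, X.Act a → ∀ y, ∀ ε > 0, ∃ᶠ s in atTop,
      ‖w ((X.P a).pt s y) - o.m.p ((X.P a).pt s y)‖ ≤ ε) : dif o w ∈ Hs 𝔉.F0.toPre (Ph o) := by
  have h := X.ok
  have sf : Sm I (dif o w) := Grp76.sm_ind h.Om fun x hx =>
    Wz78.SA.clm hsL ((e.m.su.contMDiffAt (h.Om.2.mem_nhds hx)).sub (o.ok.sp x))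
  refine (hs_iff h).2 ⟨Grp76.nice_of_fl h.tame.choose_spec sf (Grp76.fl_of_lin sf
    (hardy X hl.le sf (nice_rhs X e ht none) (fun a x hx => ?_) fun a z ε hε => ?_)
    (fun a => Cb_clm (-Wz78.adcL) (o.cAt y.t a)) (nice_rhs X e ht) (D_dif X e ht)),
    Grp76.Ph_w h e.m⟩
  · have h1 := W_end (X.okP a) h (o := o) y.ht 0 (U_mono _ hl.le hx) (map_zero _) none
    obtain ⟨s, z, hs, rfl⟩ := exists_pt (X.okP a) hl.le hx
    rw [(lit_eq (hl.lit a) y.ht hs z).2.2.2.1, (hl.lit a).tmp _ y.ht] at h1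
    rw [D_dif X e ht, show o.A y.t none _ = 0 by simpa using h1.symm, map_zero, neg_zero,
      _root_.zero_apply, zero_add]
  · by_cases k : X.Act a
    · have p : 0 < ‖(hsL : CL _ o.m.A)‖ + 1 := by positivity
      refine (h0 a k z _ (div_pos hε p)).mono fun s hs => (norm_indicator_le_norm_self _ _).trans
        ((hsL.le_opNorm_of_le hs).trans ?_)
      rw [mul_div_assoc', div_le_iff₀ p]
      nlinarith
    · refine ((eventually_gt_atTop X.R).mono fun s hs => ?_).frequently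
      rw [dif, indicator_of_notMem fun k' => k (act_of X (pt_U (X.okP a) le_rfl hs z) k'),
        norm_zero]
      exact hε.le

end ale

end Crest.Agent.X212.End14
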