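import Crest.Agent.X212.End14.Cyl

/-! Local smooth convergence and uniform decay give convergence in the weighted spaces. -/

set_option autoImplicit false
set_option linter.unusedSectionVars false
noncomputable section
open scoped Manifold ContDiff Topology InnerProductSpace
open MeasureTheory Set Function Filter Real

namespace Crest.Agent.X212.End14
open An An.Pre Sob92 Mod61 Nd18 Eqv71 Nk89 Cyf70 End3 Pj41 Neck67 Bki64 Cmp73
open Grp76 (Nice hs_iff)

variable {E : Type} [NormedAddCommGroup E] [NormedSpace ℝ E] [FiniteDimensional ℝ E]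
  [MeasurableSpace E] [BorelSpace E]
  {HM : Type} [TopologicalSpace HM] {I : ModelWithCorners ℝ E HM} [I.Boundaryless]
  {M : Type} [TopologicalSpace M] [ChartedSpace HM M] [IsManifold I ∞ M]
  [MeasurableSpace M] [T2Space M] [BorelSpace M] [SecondCountableTopology M]
  {κ : Type} [Fintype κ] {lam : Type} [Fintype lam]
  {T : Type} [NormedAddCommGroup T] [NormedSpace ℝ T]
  {N N' : Type} [NormedAddCommGroup N] [NormedSpace ℝ N] [NormedAddCommGroup N'] [NormedSpace ℝ N']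
  {V : Type} [NormedAddCommGroup V] [InnerProductSpace ℝ V]
  {𝔉 : Fam I M (Option κ) lam T} {δ : ℝ} {α : Type} {l : Filter α}

theorem ip_dom {F : Pre I M (Option κ)} {θ : M → ℝ} (hθ : MemLp θ 2 F.μ) (k : ℕ) :
    ∀ {f : α → M → V}, (∀ w, ∀ ε > 0, ∀ᶠ i in l, ∀ x, ‖F.Dw w (f i) x‖ ≤ ε * θ x) →
      Tendsto (fun i => F.ip k (f i) (f i)) l (𝓝 0) := by
  have h0 : ∀ {f : α → M → V}, (∀ w, ∀ ε > 0, ∀ᶠ i in l, ∀ x, ‖F.Dw w (f i) x‖ ≤ ε * θ x) →
      Tendsto (fun i => ∫ x, ⟪f i x, f i x⟫_ℝ ∂F.μ) l (𝓝 0) := fun {f} h => by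
    have h1 : Tendsto (fun ε : ℝ => ε ^ 2 * ∫ x, θ x ^ 2 ∂F.μ) (𝓝[>] 0) (𝓝 0) :=
      (Continuous.tendsto' (by fun_prop) _ _ (by simp)).mono_left nhdsWithin_le_nhds
    refine NormedAddGroup.tendsto_nhds_zero.2 fun η hη => ?_
    obtain ⟨ε, h2, h3⟩ := ((h1.eventually (gt_mem_nhds hη)).and self_mem_nhdsWithin).exists
    refine (h [] ε h3).mono fun i hi => lt_of_le_of_lt ?_ h2
    rw [← integral_const_mul]
    refine norm_integral_le_of_norm_le (hθ.integrable_sq.const_mul _) (.of_forall fun x => ?_)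
    rw [real_inner_self_eq_norm_sq, norm_pow, norm_norm, ← mul_pow]
    exact pow_le_pow_left₀ (norm_nonneg _) (hi x) 2
  induction k with
  | zero => exact h0
  | succ k ih =>
    intro f h
    simpa only [Pre.ip, Finset.sum_const_zero, add_zero] using (h0 h).add (tendsto_finsetSum
      Finset.univ fun a _ => ih (f := fun i => F.D a (f i)) fun w => h (a :: w))

theorem sb_cv {F : Pre I M (Option κ)} {O : Set T} {f : T → M → N} (h : Prm93.SB F O f)
    {t : α → T} {t₀ : T} (h0 : t₀ ∈ O) (ht : Tendsto t l (𝓝[O] t₀)) {Ω : Set M} :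
    Cv I l Ω (fun i => f (t i)) (f t₀) := by
  simpa using ((ZZ.cv fun k => zz_sb (k := k) h h0 ht (.of_forall fun _ => isOpen_univ)).add
    (Cv.fixed' (h.cb _ h0).choose_spec.1)).mono le_rfl (subset_univ Ω)

variable (X : Ends 𝔉 δ) {d L s : ℝ} {f g : α → M → N}

/-- the ends above the height `s` -/
def Es (s : ℝ) : Set M := ⋃ a, (X.P a).U s

theorem es_op (s : ℝ) : IsOpen (Es X s) := isOpen_iUnion fun _ => isOpen_U _ _

theorem es_iff (hs : X.R ≤ s) {x : M} : x ∈ Es X s ↔ x ∈ Es X X.R ∧ δ * s < X.ψ x := by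
  simp only [Es, mem_iUnion, ← exists_and_right]
  refine exists_congr fun a => ⟨fun h => ⟨U_mono _ hs h, ?_⟩, fun h => ⟨h.1.1, ?_⟩⟩
  · rw [(X.okP a).wt x (U_mono _ hs h)]
    exact mul_lt_mul_of_pos_left h.2 X.δ0
  · exact lt_of_mul_lt_mul_left ((X.okP a).wt x h.1 ▸ h.2) X.δ0.le

/-- uniform exponential decay -/
def TB (l : Filter α) (d L : ℝ) (f : α → M → N) : Prop := ∀ j, ∃ C, ∀ᶠ i in l, ∀ s, L ≤ s →
  Lb 𝔉.F0.toPre (Es X s) j (f i) (C * exp (-d * s))

variable {X}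

theorem TB.app (h : TB X l d L f) {A : α → M → N →L[ℝ] N'}
    (hA : ∀ j, ∃ K, ∀ᶠ i in l, Lb 𝔉.F0.toPre univ j (A i) K) :
    TB X l d L fun i x => A i x (f i x) := fun j =>
  let ⟨C, hC⟩ := h j
  let ⟨K, hK⟩ := hA j
  ⟨2 ^ j * |K| * |C|, (hC.and hK).mono fun i hi s hs => ((hi.2.sub (subset_univ _)).app (es_op X s)
    (hi.1 s hs)).mono (le_of_eq (by rw [abs_mul, abs_exp]; ring))⟩

theorem TB.clm (h : TB X l d L f) (A : N →L[ℝ] N') : TB X l d L fun i x => A (f i x) :=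
  h.app fun _ => ⟨_, .of_forall fun _ => Lb.const isOpen_univ A⟩

theorem TB.add (h : TB X l d L f) (h' : TB X l d L g) : TB X l d L fun i x => f i x + g i x :=
  fun j =>
    let ⟨C, hC⟩ := h j
    let ⟨K, hK⟩ := h' j
    ⟨C + K, (hC.and hK).mono fun _ hi s hs =>
      (Lb.add (es_op X s) (hi.1 s hs) (hi.2 s hs)).mono (add_mul _ _ _).ge⟩

theorem TB.fm {f : α → M → Fm (Option κ) V} (h : ∀ a, TB X l d L fun i x => f i x a) :
    TB X l d L f := by
  classical
  have e : f = fun i x => ∑ a, Grp76.ij V a (f i x a) :=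
    funext₂ fun i x => PiLp.ext fun a => (Grp76.sum_ij _ a).symm
  rw [e]
  refine Finset.induction_on (motive := fun s => TB X l d L fun i x =>
    ∑ a ∈ s, Grp76.ij V a (f i x a)) Finset.univ (fun j => ⟨0, .of_forall fun i s _ =>
      (Lb.const (es_op X s) 0).mono (by simp)⟩) fun a s ha ih => ?_
  simpa only [Finset.sum_insert ha] using ((h a).clm _).add ih

theorem TB.lim [FiniteDimensional ℝ N] [l.NeBot] (h : TB X l d L f) {g : M → N}
    (hc : Cv I l univ f g) (l' : Filter α) : TB X l' d L fun _ => g := fun j =>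
  (h j).imp fun _ hC => .of_forall fun _ s hs => Lb.of_Dw
    (fun _ _ => hc.smoothAt isOpen_univ trivial) fun w hw x hx =>
      le_of_tendsto ((Cv.Dw isOpen_univ _ w hc).pt x trivial).norm
        (hC.mono fun _ hi => (hi s hs).Dw w hw x hx)

variable (hL : X.R ≤ L)
include hL

theorem TB.dom (h : TB X l d L f) (w : List (Option κ)) : ∃ C, ∀ᶠ i in l, ∀ x ∈ Es X (L + 1),
    ‖𝔉.F0.Dw w (f i) x‖ ≤ C * exp (-(d / δ) * X.ψ x) := by
  obtain ⟨C, hC⟩ := h w.length
  refine ⟨C * exp d, hC.mono fun i hi x hx => ?_⟩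
  have hδ := X.δ0
  obtain ⟨h1, h2⟩ := (es_iff X (by linarith)).1 hx
  rw [← lt_div_iff₀' hδ] at h2
  refine ((hi (X.ψ x / δ - 1) (by linarith)).Dw w le_rfl x ((es_iff X (by linarith)).2
    ⟨h1, by rw [← lt_div_iff₀' hδ]; linarith⟩)).trans_eq ?_
  rw [mul_assoc, ← exp_add]
  congr 2
  field_simp
  ring

theorem TB.nice (hd : δ < d) {i : α} (h : TB X (pure i) d L f) (hf : Sm I (f i)) :
    Nice 𝔉.F0.toPre (f i) := by
  have c := X.wt.sm.continuous
  refine nice_of_dom (memLp_om X hd) (fun x => ?_) hf fun w => ?_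
  · rw [abs_exp, exp_le_one_iff]
    exact mul_nonpos_of_nonpos_of_nonneg
      (neg_nonpos.2 (div_pos (X.δ0.trans hd) X.δ0).le) (X.ψ0 x)
  · exact dom_of_ends X (R' := L + 1) (by linarith) (by fun_prop) (fun _ => exp_pos _)
      (sm_Dw hf w).continuous fun a => (h.dom hL w).imp fun C hC x hx =>
        hC x (mem_iUnion.2 ⟨a, hx⟩)

theorem TB.small [FiniteDimensional ℝ N] [l.NeBot] {d' : ℝ} (hd : d' < d) (h : TB X l d L f)
    (hc : Cv I l univ f fun _ => 0) (w : List (Option κ)) {ε : ℝ} (hε : 0 < ε) :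
    ∀ᶠ i in l, ∀ x, ‖𝔉.F0.Dw w (f i) x‖ ≤ ε * exp (-(d' / δ) * X.ψ x) := by
  have hδ := X.δ0
  obtain ⟨C, hC⟩ := h.dom hL w
  obtain ⟨s, h1, h2⟩ := ((ev_small (sub_pos.2 hd) |C| hε).and (eventually_ge_atTop (L + 1))).exists
  have h3 := (Cv.fixed' (l := l) (Ω := univ) (g := fun x => exp (d' / δ * X.ψ x))
    (contDiff_exp.contMDiff.comp (contMDiff_const.mul X.wt.sm))).smul (Cv.Dw isOpen_univ 𝔉.F0.toPre w hc)
  filter_upwards [hC, h3.unif isOpen_univ (core X (R' := s) (by linarith)) (subset_univ _) hε]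
    with i h4 h5 x
  by_cases hx : x ∈ Es X s
  · obtain ⟨h6, h7⟩ := (es_iff X (by linarith)).1 hx
    refine (h4 x ((es_iff X (by linarith)).2 ⟨h6, lt_of_le_of_lt (by gcongr) h7⟩)).trans ?_
    rw [show -(d / δ) * X.ψ x = -(d - d') * (X.ψ x / δ) + -(d' / δ) * X.ψ x by ring, exp_add,
      ← mul_assoc]
    rw [← lt_div_iff₀' hδ] at h7
    refine mul_le_mul_of_nonneg_right (le_trans ?_ h1) (exp_pos _).le
    exact mul_le_mul (le_abs_self C) (exp_le_exp.2 (by nlinarith)) (exp_pos _).le (abs_nonneg C)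
  · have h6 := (h5 x hx).le
    rw [show 𝔉.F0.Dw w (fun _ => (0 : N)) x = 0 from norm_le_zero_iff.1
      ((CB_const w.length 0 w le_rfl x).trans_eq norm_zero), smul_zero, sub_zero,
      norm_smul_of_nonneg (exp_pos _).le] at h6
    rwa [neg_mul, exp_neg, ← div_eq_mul_inv, le_div_iff₀' (exp_pos _)]

/-- **convergence in the weighted Sobolev spaces** -/
theorem TB.tend [FiniteDimensional ℝ V] [l.NeBot] (hd : δ < d) {p : M → V →L[ℝ] V}
    {u f : α → M → V} {g : M → V} (h : TB X l d L f) (hc : Cv I l univ f g)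
    (e : ∀ᶠ i in l, u i = f i) (hu : ∀ i, u i ∈ Hs 𝔉.F0.toPre p) (hg : g ∈ Hs 𝔉.F0.toPre p)
    {k : ℕ} (hk : 4 ≤ k) :
    Tendsto (fun i => ofV 𝔉.F0.toPre k p (u i)) l (𝓝 (ofV 𝔉.F0.toPre k p g)) := by
  have := FiniteDimensional.complete ℝ V
  obtain ⟨d', h1, h2⟩ := exists_between hd
  have sg := ((hs_iff X.ok).1 hg).1.sm
  have h3 := (ip_dom (memLp_om X h1) k fun w ε => (h.add ((h.lim hc l).clm
    (-ContinuousLinearMap.id ℝ V))).small hL h2 ((hc.add (Cv.fixed' sg).neg).congr' isOpen_univ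
      (.of_forall fun _ _ _ => rfl) fun x _ => (add_neg_cancel _).symm) w).sqrt
  rw [sqrt_zero] at h3
  refine tendsto_iff_norm_sub_tendsto_zero.2 (h3.congr' (e.mono fun i hi => ?_))
  have k1 := Is.val X.ok.sup hk (ofV 𝔉.F0.toPre k p (u i))
  have k2 := Is.val X.ok.sup hk (ofV 𝔉.F0.toPre k p g)
  rw [val_ofV (hu i) hk] at k1
  rw [val_ofV hg hk] at k2
  beta_reduce
  rw [(k1.sub k2).norm (((hs_iff X.ok).1 (hu i)).1.sm.sub sg), hi, sub_eq_add_neg]
  rfl

end Crest.Agent.X212.End14
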