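import Crest.Agent.X212.End14.Cnv

/-! Gluing the local gauges to the gauges on the ends. -/

set_option autoImplicit false
set_option linter.unusedSectionVars false
noncomputable section
open scoped Manifold ContDiff Topology InnerProductSpace
open MeasureTheory Set Function Filter Real

namespace Crest.Agent.X212.End14
open An An.Pre Sob92 Mod61 Nd18 Eqv71 Nk89 Cyf70 End3 Pj41 Neck67 Bki64 Cmp73 Std94
open Tmp64 (AdmOn)

variable {E : Type} [NormedAddCommGroup E] [NormedSpace ℝ E] [FiniteDimensional ℝ E]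
  [MeasurableSpace E] [BorelSpace E]
  {HM : Type} [TopologicalSpace HM] {I : ModelWithCorners ℝ E HM} [I.Boundaryless]
  {M : Type} [TopologicalSpace M] [ChartedSpace HM M] [IsManifold I ∞ M]
  [MeasurableSpace M] [T2Space M] [BorelSpace M] [SecondCountableTopology M]
  {κ : Type} [Fintype κ] {lam : Type} [Fintype lam]
  {T : Type} [NormedAddCommGroup T] [NormedSpace ℝ T]
  {𝔉 : Fam I M (Option κ) lam T} {δ : ℝ} {r r' r'' : ℕ} {α : Type}

section gen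
variable {m m' : Md M (Option κ) lam} {B : Base M (Option κ) lam} {O : Set M} {x : M}

theorem iso0_val {u v : M → CL m.V m'.V} (h : Iso0 I m m' {x} u) (hv : FSm I v x) (e : v x = u x) :
    Iso0 I m m' {x} v :=
  ⟨fun _ k => k ▸ hv, fun _ k => k ▸ e ▸ h.iso x rfl, fun _ k => k ▸ e ▸ h.J x rfl,
    fun _ k => k ▸ e ▸ h.ρ x rfl, fun _ k => k ▸ e ▸ h.j x rfl⟩

theorem iso0_ev {u v : M → CL m.V m'.V} (h : Iso0 I m m' {x} u) (e : v =ᶠ[𝓝 x] u) :
    Iso0 I m m' {x} v := iso0_val h ((h.su x rfl).congr_of_eventuallyEq e) e.eq_of_nhds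

theorem iso0_lim {l : Filter α} [l.NeBot] {h : α → M → CL m.V m'.V} {g : M → CL m.V m'.V}
    (hO : IsOpen O) (hm : m.OK I B) (hm' : m'.OK I B) (hg : Cv I l O h g)
    (k : ∀ x ∈ O, ∀ᶠ i in l, Iso0 I m m' {x} (h i)) : Iso0 I m m' O g := by
  have ga := hg.clm adL
  refine ⟨fun x hx => hg.smoothAt hO hx, fun x hx => ⟨?_, ?_, ?_⟩, fun x hx => ?_,
    fun x hx b => ?_, fun x hx s => ?_⟩
  · exact (ga.clm_comp hg).eq_of (.fixed' hm.sp) hx ((k x hx).mono fun _ h => (h.iso x rfl).src)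
  · exact (hg.clm_comp ga).eq_of (.fixed' hm'.sp) hx ((k x hx).mono fun _ h => (h.iso x rfl).tgt)
  · exact (hg.clm_comp (.fixed' hm.sp)).eq_of hg hx ((k x hx).mono fun _ h => (h.iso x rfl).idem)
  · exact ((Cv.const _).clm_comp hg).eq_of (hg.clm_comp (Cv.const _)) hx
      ((k x hx).mono fun _ h => h.J x rfl)
  · exact ((Cv.fixed' (hm'.sρ b)).clm_comp hg).eq_of (hg.clm_comp (.fixed' (hm.sρ b))) hx
      ((k x hx).mono fun _ h => h.ρ x rfl b)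
  · exact (((Cv.fixed' hm'.sj).app (Cv.const s)).clm_comp hg).eq_of
      (hg.clm_comp ((Cv.fixed' hm.sj).app (Cv.const s))) hx ((k x hx).mono fun _ h => h.j x rfl s)

theorem cov_quot' {G : Geo I M (Option κ) lam} {c : Cfg M (Option κ) lam r}
    {c' : Cfg M (Option κ) lam r'} {c'' : Cfg M (Option κ) lam r''} {u : M → CL c.m.V c'.m.V}
    {u' : M → CL c.m.V c''.m.V} (hu : Iso0 I c.m c'.m O u) (hu' : Iso0 I c.m c''.m O u')
    (hO : IsOpen O) (hc : Adm0 c B G) {a : Option κ} (hs : Skw (c'.W a x)) (hx : x ∈ O) :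
    cov G.F c' c'' (fun y => u' y ∘L ad (u y)) a x = dA G.F c c'' u' a x ∘L (u' x ∘L ad (u x)) +
      (u' x ∘L ad (u x)) ∘L ad (dA G.F c c' u a x) := by
  have k : AdmOn (noz c) B G O :=
    ⟨OK.on hc.ok _, IsConn.on hc.conn _, fun x _ => hc.sm x, fun x _ => hc.pos x, .inl rfl⟩
  have e1 : dA G.F c c' u a x ∘L u x = cov G.F c c' u a x := dA_u (c := noz c) hu hO k hx a
  have e2 : dA G.F c c'' u' a x ∘L u' x = cov G.F c c'' u' a x := dA_u (c := noz c) hu' hO k hx a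
  rw [cov_comp (c' := c) (hu.su x hx).ad (hu'.su x hx), cov_ad (hu.su x hx) (hc.conn.sk a x) hs,
    ← e1, ← e2, ad_comp]
  simp only [ContinuousLinearMap.comp_assoc]

theorem ev_ev {l : Filter α} {p : α → M → Prop} (h : ∀ᶠ q : α × M in l ×ˢ 𝓝 x, p q.1 q.2) :
    ∀ᶠ q : α × M in l ×ˢ 𝓝 x, ∀ᶠ y in 𝓝 q.2, p q.1 y :=
  let ⟨_, h1, _, h2, H⟩ := eventually_prod_iff.1 h
  (h1.prod_mk h2.eventually_nhds).mono fun _ hq => hq.2.mono fun _ hy => H hq.1 hy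

theorem hs_cd {n : ℕ} : ContDiff ℝ ∞ fun a : En (Fin n) => 1 + (hs a a / 16 - 1) := by
  simp only [← inner_hs]
  exact contDiff_const.add (((hsL.contDiff.inner ℝ hsL.contDiff).div_const _).sub contDiff_const)

theorem nz_cd {n : ℕ} {a : En (Fin n)} (h : 0 < 1 + (hs a a / 16 - 1)) :
    ∀ᶠ b in 𝓝 a, ContDiffAt ℝ ∞ nz b :=
  (hs_cd.continuous.continuousAt.eventually (lt_mem_nhds h)).mono fun _ hb =>
    ((hs_cd.contDiffAt.sqrt hb.ne').inv (sqrt_pos.2 hb).ne').smul contDiffAt_id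

theorem hs_near (hm : m.OK I B) {a : En (Fin m.N)} (h : ‖a - m.p x‖ < 1) :
    0 < 1 + (hs a a / 16 - 1) := by
  have h1 := hs_iso (OK.on hm univ) (mem_univ x) ((OK.on hm univ).prj (mem_univ x)).refl
  rw [add_sub_cancel, ← inner_hs, real_inner_self_eq_norm_sq]
  refine div_pos (pow_pos (norm_pos_iff.2 fun k => ?_) 2) (by norm_num)
  rw [← Wz78.opL_hsL a, k, map_zero, zero_sub, norm_neg] at h
  have h2 : ‖m.p x‖ ≤ ‖m.p x‖ * ‖m.p x‖ := by
    conv_lhs => rw [← hm.pidem x]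
    exact norm_mul_le _ _
  have h3 : m.p x = 0 := norm_le_zero_iff.1 (by nlinarith [norm_nonneg (m.p x)])
  rw [h3, ← inner_hs, map_zero, inner_zero_left] at h1
  norm_num at h1

end gen

variable (X : Ends 𝔉 δ) {o : Ref 𝔉}

theorem D_es {N : Type} [NormedAddCommGroup N] [NormedSpace ℝ N] {t : T} (ht : t ∈ 𝔉.Q) {s : ℝ}
    (hs : X.R ≤ s) {x : M} (hx : x ∈ Es X s) (a : Option κ) (u : M → N) :
    (𝔉.G t).F.D a u x = 𝔉.F0.D a u x :=
  let ⟨b, hb⟩ := mem_iUnion.1 hx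
  D_end X.ok (X.okP b) ht (U_mono _ hs hb) a u

variable {c : α → Cfg M (Option κ) lam r} {t : α → T}

variable (c t) in
/-- uniform exponential closeness on the active ends -/
def TS (l : Filter α) (V : ∀ i, M → CL (c i).m.V o.m.V) (θ : α → Circle) (d L : ℝ) : Prop :=
  ∀ j, ∃ C, ∀ᶠ i in l, TC o (fun s => 𝔉.Om ∩ Es X s) (c i) (t i) (V i) (θ i) d L j C

theorem ts_of {l : Filter α} {V : X.A → ∀ i, M → CL (c i).m.V o.m.V} {θ : α → Circle} {d L : ℝ}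
    (hL : X.R ≤ L) {U : ∀ i, M → CL (c i).m.V o.m.V} (e : ∀ i a, ∀ x ∈ (X.P a).U L, U i x = V a i x)
    (h : ∀ a, X.Act a → ∀ j, ∃ C, ∀ᶠ i in l, TC o (X.P a).U (c i) (t i) (V a i) (θ i) d L j C) :
    TS X c t l U θ d L := fun j => by
  choose! C hC using fun a ha => h a ha j
  refine ⟨∑ a, |C a|, (eventually_all.2 fun a => eventually_imp_distrib_left.2 (hC a)).mono
    fun i hi s hs => Cl.of_local (X.ok.Om.2.inter (es_op X s)) fun x hx => ?_⟩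
  obtain ⟨a, ha⟩ := mem_iUnion.1 hx.2
  refine ⟨_, _, _, ha, ((isOpen_U _ _).eventually_mem (U_mono _ hs ha)).mono (e i a), .rfl,
    (hi a (act_of X (U_mono _ (hL.trans hs) ha) hx.1) s hs).mono (isOpen_U _ _) Subset.rfl le_rfl
      (mul_le_mul_of_nonneg_right ((le_abs_self _).trans ?_) (exp_pos _).le)⟩
  exact Finset.single_le_sum (fun b _ => abs_nonneg (C b)) (Finset.mem_univ a)

variable {R R' d : ℝ} {y₀ : Pnt o r} {𝒰 : Ultrafilter α} {ζ ζ' : α → Circle}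
  {u : ∀ i, M → CL (c i).m.V o.m.V} (hl : X.Lit o R)
  (hc : ∀ᶠ i in (𝒰 : Filter α), t i ∈ 𝔉.Q ∧ Adm0 (c i) 𝔉.B (𝔉.G (t i)))
  (hu : ULim I 𝔉.B 𝒰 𝔉.Om (fun i => (𝔉.G (t i)).F.e) c y₀.cfg u ζ) (ht : Tendsto t 𝒰 (𝓝 y₀.t))
include hc hu ht

include hl in
/-- the gauge on all ends -/
theorem ends_gauge (hR : R + 1 ≤ R') (hd : 0 < d)
    {v : ∀ i a, (X.P a).Y.M × ℝ → CL (c i).m.V o.m.V}
    (h1 : ∀ a, X.Act a → (∀ᶠ i in (𝒰 : Filter α), ∀ j, ∃ C,
      (X.P a).EB (c i) ((X.P a).sl o (R + 1) (t i)) (v i a) (ζ' i) d R' j C) ∧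
      ∀ j, ∃ C, ∀ᶠ i in (𝒰 : Filter α),
        (X.P a).EB (c i) ((X.P a).sl o (R + 1) (t i)) (v i a) (ζ' i) d R' j C)
    (h2 : ∀ a, X.Act a → ∀ (s : (X.P a).Y.M × ℝ → CL o.m.V o.m.V) (ζ : Circle),
      EqOn (X.P a).D.B (X.P a).D.Z univ (cy ((X.P a).sl o (R + 1) y₀.t))
        (cy ((X.P a).sl o (R + 1) y₀.t)) s ζ → ∀ t' ∈ 𝔉.Q,
      EqOn (X.P a).D.B (X.P a).D.Z univ (cy ((X.P a).sl o (R + 1) t'))
        (cy ((X.P a).sl o (R + 1) t')) s ζ) :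
    ∃ (V : ∀ i, M → CL (c i).m.V o.m.V) (θ : α → Circle),
      Tendsto (fun i => θ i / ζ i) 𝒰 (𝓝 1) ∧ (∀ᶠ i in (𝒰 : Filter α), TS X c t (pure i) V θ d R') ∧
      TS X c t 𝒰 V θ d R' ∧ ∀ ε > 0, ∀ᶠ n : ℕ in hyperfilter ℕ, ∀ᶠ i in (𝒰 : Filter α),
        ∀ x ∈ 𝔉.Om ∩ Es X R', |X.ψ x / δ - n| < 1 / 2 → ‖V i x ∘L ad (u i x) - o.m.p x‖ ≤ ε := by
  obtain ⟨ξ, -, hξ⟩ := isCompact_univ.ultrafilter_le_nhds (𝒰.map fun i => ζ i / ζ' i) (by simp)
  have hL : X.R ≤ R' := by linarith [hl.le]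
  choose! V k1 k2 k3 using fun a ha =>
    one_end X hl hc hu (a := a) ha hR hd ht (h2 a ha) (h1 a ha).1 (h1 a ha).2 hξ
  have e : ∀ i a, ∀ x ∈ (X.P a).U R', ∑ b, ((X.P b).U R').indicator (V b i) x = V a i x :=
    fun i a x hx => (Finset.sum_eq_single a (fun b _ hb => indicator_of_notMem (fun k =>
      disjoint_left.1 (X.dis hb) (U_mono _ hL k) (U_mono _ hL hx)) _) (by simp)).trans
        (indicator_of_mem hx _)
  refine ⟨fun i x => ∑ b, ((X.P b).U R').indicator (V b i) x, fun i => ξ * ζ' i, ?_,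
    (eventually_all.2 fun a => eventually_imp_distrib_left.2 (k1 a)).mono fun i hi =>
      ts_of X hL e hi, ts_of X hL e k2, fun ε hε => ?_⟩
  · have := (tendsto_const_nhds (x := ξ)).div' (show Tendsto _ _ _ from hξ)
    rw [div_self'] at this
    exact this.congr fun i => by rw [div_div_eq_mul_div]
  refine (eventually_all.2 fun a => eventually_imp_distrib_left.2 fun ha => k3 a ha ε hε).mono
    fun n hn => (eventually_all.2 fun a => eventually_imp_distrib_left.2 (hn a)).mono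
      fun i hi x hx k => ?_
  obtain ⟨a, ha⟩ := mem_iUnion.1 hx.2
  have h3 := (X.okP a).wt x (U_mono _ hL ha)
  have h4 := act_of X (U_mono _ hL ha) hx.1
  beta_reduce
  rw [e i a x ha]
  obtain ⟨s, y, hs, rfl⟩ := exists_pt (X.okP a) hL ha
  rw [h3, tm_pt (X.okP a) (hL.trans hs.le), sg_sg, mul_div_cancel_left₀ _ X.δ0.ne'] at k
  exact hi a h4 s y k

variable {V : ∀ i, M → CL (c i).m.V o.m.V} {θ : α → Circle} (hR : X.R ≤ R')
  (hV : TS X c t 𝒰 V θ d R')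
include hR hV

theorem quot_iso {x : M} (hx : x ∈ 𝔉.Om ∩ Es X R') : ∀ᶠ q : α × M in (𝒰 : Filter α) ×ˢ 𝓝 x,
    Iso0 I o.m o.m {q.2} fun y => V q.1 y ∘L ad (u q.1 y) := by
  filter_upwards [ulim_iso hu (hc.mono fun _ k => k.2.ok) o.ok hx.1, ((hV 0).choose_spec.and
    hc).prod_mk ((X.ok.Om.2.inter (es_op X R')).mem_nhds hx)] with q h1 h2
  exact (h1.symm (OK.on h2.1.2.2.ok _) (OK.on o.ok _)).trans
    ((h2.1.1 _ le_rfl).iso.mono (singleton_subset_iff.2 h2.2))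

/-- the transition to the gauge on the ends converges -/
theorem quot_cv : ∃ g, Cv I 𝒰 (𝔉.Om ∩ Es X R') (fun i y => V i y ∘L ad (u i y)) g := by
  have hO := X.ok.Om.2.inter (es_op X R')
  refine MBOn.exists_cv fun k x hx => ?_
  have h0 : MB I 𝒰 x 0 fun i y => V i y ∘L ad (u i y) :=
    have k := quot_iso X hc hu ht hR hV hx
    MB.zero_of (k.mono fun q h => h.su _ rfl) ⟨1, k.mono fun q h => norm_iso (h.iso _ rfl)⟩
  induction k with
  | zero => exact h0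
  | succ k ih =>
    refine MB.gainP 𝔉.F0.toPre h0 fun a => ?_
    have h1 : BB (N := CL o.m.V o.m.V) 𝔉.F0.toPre 𝒰 (fun _ => 𝔉.Om ∩ Es X R') k
        fun i => dA 𝔉.F0 (c i) (bt o (t i)) (V i) a :=
      (hV k).elim fun C hC => ⟨C * exp (-d * R'), hC.mono fun i hi => ⟨hO, (hi _ le_rfl).A a⟩⟩
    replace h1 := h1.mb hx
    have h2 := ((hu.A a).clm adL).mb k x hx.1
    have h3 := (sb_cv (o.sbA a) trivial (nhdsWithin_univ y₀.t ▸ ht)).mb k x hx
    have h4 : MB I (𝒰 : Filter α) x k fun _ => y₀.cfg.W a := .fixed' ((y₀.ad0 X.ok).conn.cc.sm a)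
    refine ((((h1.clm_comp ih).add (ih.clm_comp h2)).sub (h3.clm_comp ih)).add
      (ih.clm_comp h4)).congr ?_
    obtain ⟨N, n1, n2, n3⟩ := hu.m x hx.1
    filter_upwards [(n3.and ((hV 0).choose_spec.and hc)).prod_mk ((n1.inter hO).mem_nhds ⟨n2, hx⟩)]
      with q ⟨⟨k1, k2, k3, k4⟩, k5⟩
    have k6 := cov_quot' (c' := y₀.cfg) (c'' := bt o (t q.1)) (a := a)
      ((Iso0.of_mEq n1 k1 (OK.on k4.ok _) (OK.on o.ok _)).mono inter_subset_left)
      ((k2 _ le_rfl).iso.mono inter_subset_right) (n1.inter hO) k4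
      ((y₀.ad0 X.ok).conn.sk a q.2) k5
    rw [dA, cov, cov, D_es X k3 hR k5.2.2, D_es X k3 hR k5.2.2] at k6
    exact (D_eq_cov (c := y₀.cfg) (c' := bt o (t q.1)) a).trans (congrArg₂ _ (congrArg₂ _ k6 rfl) rfl)

/-- **the global gauge** -/
theorem glue (h4 : ∀ ε > 0, ∀ᶠ n : ℕ in hyperfilter ℕ, ∀ᶠ i in (𝒰 : Filter α),
    ∀ x ∈ 𝔉.Om ∩ Es X R', |X.ψ x / δ - n| < 1 / 2 → ‖V i x ∘L ad (u i x) - o.m.p x‖ ≤ ε) :
    ∃ (U : ∀ i, M → CL (c i).m.V o.m.V) (h : α → M → CL o.m.V o.m.V) (w : M → CL o.m.V o.m.V)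
      (L : ℝ), R' ≤ L ∧ (∀ i, ∀ x ∈ Es X L, U i x = V i x) ∧
      (∀ᶠ i in (𝒰 : Filter α), Iso0 I (c i).m o.m 𝔉.Om (U i)) ∧ Cv I 𝒰 𝔉.Om h w ∧
      (∀ x ∈ 𝔉.Om, ∀ᶠ q : α × M in (𝒰 : Filter α) ×ˢ 𝓝 x, Iso0 I o.m o.m {q.2} (h q.1) ∧
        ∀ᶠ y in 𝓝 q.2, U q.1 y = h q.1 y ∘L u q.1 y) ∧
      ∀ a, X.Act a → ∀ y, ∀ ε > 0, ∃ᶠ s in atTop,
        ‖w ((X.P a).pt s y) - o.m.p ((X.P a).pt s y)‖ ≤ ε := by
  have H := X.ok
  have hO := H.Om.2.inter (es_op X R')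
  have ok := fun O => OK.on o.ok O
  obtain ⟨g, hg⟩ := quot_cv X hc hu ht hR hV
  have gε : ∀ ε > 0, ∀ᶠ n : ℕ in hyperfilter ℕ, ∀ x ∈ 𝔉.Om ∩ Es X R', |X.ψ x / δ - n| < 1 / 2 →
      ‖g x - o.m.p x‖ ≤ ε := fun ε hε => (h4 ε hε).mono fun n hn x hx k =>
    le_of_tendsto ((hg.pt x hx).sub_const _).norm (hn.mono fun i hi => hi x hx k)
  have gi : Iso0 I o.m o.m (𝔉.Om ∩ Es X R') g := iso0_lim hO o.ok o.ok hg fun x hx =>
    (quot_iso X hc hu ht hR hV hx).curry.mono fun i hi => hi.self_of_nhds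
  have sf : Sm I fun x => X.ψ x / δ := X.wt.sm.div_const δ
  obtain ⟨B, hB⟩ := (core X hR).bddAbove_image sf.continuous.continuousOn
  obtain ⟨n, n1, n2, n3⟩ := ((gε _ one_half_pos).and ((hyp_top.eventually_ge_atTop (B + 1)).and
    (hyp_top.eventually_ge_atTop R'))).exists
  have es : ∀ x, n - 1 < X.ψ x / δ → x ∈ Es X R' := fun x hx => by_contra fun k => by
    linarith [hB ⟨x, k, rfl⟩]
  have hi : ∀ x ∈ Es X (n + 1), n + 1 < X.ψ x / δ := fun x hx =>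
    (lt_div_iff₀' X.δ0).2 ((es_iff X (by linarith)).1 hx).2
  obtain ⟨χ, sχ, χ0, χ1, χ2⟩ : ∃ χ : M → ℝ, Sm I χ ∧ (∀ x, X.ψ x / δ ≤ n - 1 / 6 → χ x = 0) ∧
      (∀ x, n + 1 / 6 ≤ X.ψ x / δ → χ x = 1) ∧ ∀ x, ‖χ x‖ ≤ 1 :=
    ⟨fun x => chi (X.ψ x / δ - (n - 1 / 2)), (chi_sm _).contMDiff.comp sf,
      fun x hx => chi_zero (by linarith), fun x hx => chi_one (by linarith), fun x =>
        (norm_of_nonneg (smoothTransition.nonneg _)).trans_le (smoothTransition.le_one _)⟩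
  have i0 : ∀ t x, X.ψ x / δ ≤ n - 1 / 6 → itp o.m χ t x = o.m.p x := fun t x hx => by
    rw [itp, χ0 x hx, zero_smul, add_zero]
  have i1 : ∀ t x, n + 1 / 6 ≤ X.ψ x / δ → itp o.m χ t x = t x := fun t x hx => by
    rw [itp, χ1 x hx, one_smul, add_sub_cancel]
  have c1 : Cv I 𝒰 𝔉.Om (fun i => itp o.m χ fun y => V i y ∘L ad (u i y)) (itp o.m χ g) := by
    refine .of_local fun x hx => ?_
    rcases lt_or_ge (X.ψ x / δ) (n - 1 / 6) with k | k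
    · exact ⟨{y | X.ψ y / δ < n - 1 / 6}, k, (Cv.fixed' o.ok.sp).congr' (isOpen_lt sf.continuous
        continuous_const) (.of_forall fun i y hy => i0 _ y (le_of_lt hy)) fun y hy => i0 _ y (le_of_lt hy)⟩
    · exact ⟨𝔉.Om ∩ Es X R', ⟨hx, es x (by linarith)⟩,
        (Cv.fixed' o.ok.sp).add ((Cv.fixed' sχ).smul (hg.sub (.fixed' o.ok.sp)))⟩
  have pos : ∀ x ∈ 𝔉.Om, 0 < 1 + (hs (itp o.m χ g x) (itp o.m χ g x) / 16 - 1) := fun x hx => by
    rcases le_or_gt (X.ψ x / δ) (n - 1 / 6) with k | k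
    · exact hs_near o.ok (x := x) (by simp [i0 _ x k])
    rcases lt_or_ge (X.ψ x / δ) (n + 1 / 2) with k' | k'
    · refine hs_near o.ok (x := x) ?_
      rw [itp, add_sub_cancel_left, norm_smul]
      nlinarith [n1 x ⟨hx, es x (by linarith)⟩ (abs_lt.2 ⟨by linarith, by linarith⟩), χ2 x,
        norm_nonneg (g x - o.m.p x)]
    · have m : x ∈ 𝔉.Om ∩ Es X R' := ⟨hx, es x (by linarith)⟩
      rw [i1 _ x (by linarith), hs_iso (ok _) m (gi.iso x m)]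
      norm_num
  have c2 := c1.post fun x hx => nz_cd (pos x hx)
  have iu := fun x hx => ulim_iso hu (hc.mono fun _ k => k.2.ok) o.ok (x := x) hx
  have iV := fun x (hx : x ∈ 𝔉.Om) =>
    (((hV 0).choose_spec.mono fun i hi => (hi _ le_rfl).iso).and hc).prod_mk (H.Om.2.mem_nhds hx)
  let U : ∀ i, M → CL (c i).m.V o.m.V := fun i y =>
    if n + 1 / 4 < X.ψ y / δ then V i y else gl o.m χ (u i) (V i) y
  have eU : ∀ i, ∀ x ∈ Es X (n + 1), U i x = V i x := fun i x hx => if_pos (by linarith [hi x hx])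
  have loc : ∀ x ∈ 𝔉.Om, ∀ᶠ q : α × M in (𝒰 : Filter α) ×ˢ 𝓝 x, Iso0 I o.m o.m {q.2}
      (fun y => nz (itp o.m χ (fun y => V q.1 y ∘L ad (u q.1 y)) y)) ∧
      ∀ᶠ y in 𝓝 q.2, U q.1 y = gl o.m χ (u q.1) (V q.1) y := fun x hx => by
    refine .and ?_ (ev_ev (p := fun i y => U i y = gl o.m χ (u i) (V i) y) ?_)
    · filter_upwards [(c2.mb 0 x hx).smooth, ((hs_cd.continuous.tendsto _).comp
        (c1.tendsto hx)).eventually (lt_mem_nhds (pos x hx)), iu x hx, iV x hx] with q k1 k2 k3 k4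
      rcases le_or_gt (X.ψ q.2 / δ) (n - 1 / 6) with k | k
      · refine iso0_val (.refl (ok _)) k1 ?_
        rw [i0 _ _ k, nz_of (hs_iso (ok univ) trivial ((ok univ).prj trivial).refl)]
      · exact itp_iso H.B (ok _) ((k3.symm (OK.on k4.1.2.2.ok _) (ok _)).trans (k4.1.1.mono
          (singleton_subset_iff.2 ⟨k4.2, es _ (by linarith)⟩))) (fun _ e => e ▸ k1) fun _ e => e ▸ k2
    · filter_upwards [iu x hx, iV x hx] with q k3 k4
      refine ite_eq_right_iff.2 fun k => (gl_right o.ok (k3.iso _ rfl)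
        (k4.1.1.iso _ ⟨k4.2, es _ (by linarith)⟩) (χ1 _ (by linarith))).symm
  refine ⟨U, _, _, n + 1, by linarith, eU, ?_, c2, loc, fun a ha y ε hε => hyp_top.frequently
    (((gε ε hε).and (hyp_top.eventually_gt_atTop (n + 1))).mono fun m hm => ?_).frequently⟩
  · filter_upwards [ev_compact ((core X (R' := n + 1) (by linarith)).inter_left H.Om.1)
      (p := fun i y => Iso0 I (c i).m o.m {y} (U i)) fun x hx => ((loc x hx.1).and
        (iu x hx.1)).mono fun q hq => iso0_ev (hq.2.trans hq.1.1) hq.1.2,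
      (hV 0).choose_spec] with i k1 k2
    refine iso0_pt fun x hx => (em _).elim (fun k => iso0_ev ((k2 _ le_rfl).iso.mono
      (singleton_subset_iff.2 ⟨hx, es x (by linarith [hi x k])⟩))
      (((es_op X _).eventually_mem k).mono (eU i))) fun k => k1 x ⟨hx, k⟩
  have h := X.okP a
  have k1 := pt_U h hR (show R' < m by linarith [hm.2]) y
  have k2 : X.ψ ((X.P a).pt m y) / δ = m := by
    rw [h.wt _ (U_mono _ hR k1), tm_pt h (by linarith [hm.2]), sg_sg, mul_div_cancel_left₀ _ X.δ0.ne']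
  have k3 : (X.P a).pt m y ∈ 𝔉.Om ∩ Es X R' := ⟨ha (U_mono _ hR k1), mem_iUnion.2 ⟨a, k1⟩⟩
  beta_reduce
  rw [i1 _ _ (by linarith [hm.2]), nz_of (hs_iso (ok _) k3 (gi.iso _ k3))]
  exact hm.1 _ k3 (by simp [k2])

end Crest.Agent.X212.End14
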