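import Crest.Agent.X212.End14.Glu
import Crest.Agent.X212.End3.Pt

/-! LEAF NEAR: local convergence and uniform decay give convergence in the chart. -/

set_option autoImplicit false
set_option linter.unusedSectionVars false
noncomputable section
open scoped Manifold ContDiff Topology InnerProductSpace
open MeasureTheory Set Function Filter Real

namespace Crest.Agent.X212.End14
open An An.Pre Sob92 Mod61 Nd18 Eqv71 Nk89 Cyf70 End3 Pj41 Neck67 Bki64 Cmp73 Std94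
open Grp76 (Nice hs_iff)
open Prm93 (SB)

variable {E : Type} [NormedAddCommGroup E] [NormedSpace ℝ E] [FiniteDimensional ℝ E]
  [MeasurableSpace E] [BorelSpace E]
  {HM : Type} [TopologicalSpace HM] {I : ModelWithCorners ℝ E HM} [I.Boundaryless]
  {M : Type} [TopologicalSpace M] [ChartedSpace HM M] [IsManifold I ∞ M]
  [MeasurableSpace M] [T2Space M] [BorelSpace M] [SecondCountableTopology M]
  {κ : Type} [Fintype κ] {lam : Type} [Fintype lam]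
  {T : Type} [NormedAddCommGroup T] [NormedSpace ℝ T]
  {N : Type} [NormedAddCommGroup N] [NormedSpace ℝ N]
  {𝔉 : Fam I M (Option κ) lam T} {δ : ℝ} {r : ℕ} {α : Type} {l : Filter α}

theorem cv_ind {O : Set M} (hO : IsClopen O) {f : α → M → N} {g : M → N} (h : Cv I l O f g) :
    Cv I l univ (fun i => O.indicator (f i)) (O.indicator g) :=
  .of_local fun x _ => (em (x ∈ O)).elim (fun k => ⟨O, k, h.congr' hO.2 (.of_forall fun _ _ k =>
    indicator_of_mem k _) fun _ k => indicator_of_mem k _⟩) fun k => ⟨Oᶜ, k, (Cv.const 0).congr'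
      hO.1.isOpen_compl (.of_forall fun _ _ k => indicator_of_notMem k _)
        fun _ k => indicator_of_notMem k _⟩

/-- the base configuration for `G t` -/
abbrev bw (o : Ref 𝔉) (t : T) : Cfg M (Option κ) lam 0 := ⟨o.m, o.W t 0, o.Φ0, 0⟩

variable {o : Ref 𝔉}

theorem sb_W (H : 𝔉.OK) (a : Option κ) : SB 𝔉.F0.toPre 𝔉.Q fun t => o.W t 0 a :=
  (((SB.sum fun b => (H.sS a b).smul ((o.sbA b).mono (subset_univ _))).add
    (SB.sum fun b => SB.sum fun l =>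
    (H.scf a b l).smul ((SB.fixed (o.cρ b)).mul (SB.fixed (o.cρ l))))).add
    ((H.sla a).smul ((SB.fixed (Cb_const o.m.J)).mul (SB.fixed o.cp)))).congr fun t _ =>
      funext fun x => by simp [W_apply, Fam.W0]

theorem sm_gA (H : 𝔉.OK) {t : T} (ht : t ∈ 𝔉.Q) {c : Cfg M (Option κ) lam r}
    (hc : Adm0 c 𝔉.B (𝔉.G t)) {u : M → CL c.m.V o.m.V} (hu : Iso0 I c.m o.m 𝔉.Om u) :
    Sm I (gA o t c u) := Eqv71.sm_ind H.Om fun x hx =>
  (PiLp.continuousLinearEquiv 2 ℝ fun _ : Option κ => o.m.A).symm.contDiff.contMDiff.contMDiffAt.comp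
    x (contMDiffAt_pi_space.2 fun a => hsL.contMDiff.contMDiffAt.comp x (fsm_dA (c' := bw o t)
      (hu.su x hx) (hc.conn.cc.sm a x) ((isConn_W H ht contMDiff_const
        fun _ _ => zero_mem _).cc.sm a x)).neg)

theorem gP_eq (H : 𝔉.OK) {c : Cfg M (Option κ) lam r} (h0 : ∀ x ∈ 𝔉.Om \ 𝔉.Om', c.Φ x = 0)
    (u : M → CL c.m.V o.m.V) (ζ : Circle) (t : T) :
    gP o c u ζ = 𝔉.Om.indicator (dP c (bt o t) u ζ) := funext fun x => by
  by_cases hx : x ∈ 𝔉.Om'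
  · rw [gP, indicator_of_mem hx, indicator_of_mem (H.sub hx)]; rfl
  have h1 : o.Φ0 x = 0 := by rw [← o.pos x, indicator_of_notMem hx]; rfl
  rw [gP, indicator_of_notMem hx, h1, sub_zero]
  refine (indicator_apply_eq_zero.2 fun k => ?_).symm
  rw [dP, h0 x ⟨k, hx⟩, map_zero, cs_zero]
  exact sub_eq_zero.2 h1.symm

variable {X : Ends 𝔉 δ} {d L : ℝ} {f g : α → M → N}

theorem es_mono {s s' : ℝ} (h : s ≤ s') : Es X s' ⊆ Es X s := iUnion_mono fun _ => U_mono _ h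

theorem TB.congr (h : TB X l d L f) (e : ∀ᶠ i in l, ∀ x ∈ Es X L, g i x = f i x) : TB X l d L g :=
  fun j => (h j).imp fun _ hC => (hC.and e).mono fun _ hi s hs =>
    (hi.1 s hs).congr (es_op X s) fun x hx => hi.2 x (es_mono hs hx)

theorem tb_ind (h : ∀ j, ∃ C, ∀ᶠ i in l, ∀ s, L ≤ s →
    Lb 𝔉.F0.toPre (𝔉.Om ∩ Es X s) j (f i) (C * exp (-d * s))) :
    TB X l d L fun i => 𝔉.Om.indicator (f i) := fun j =>
  let ⟨C, hC⟩ := h j
  ⟨|C|, hC.mono fun i hi s hs => lb_local fun x hx => (em (x ∈ 𝔉.Om)).elim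
    (fun k => ⟨𝔉.Om ∩ Es X s, _, ⟨k, hx⟩, ind_ev X.ok.Om.2 k _, (hi s hs).mono
      (mul_le_mul_of_nonneg_right (le_abs_self C) (exp_pos _).le)⟩) fun k =>
    ⟨univ, _, trivial, ind_ev0 X.ok.Om.1 k _, (Lb.const isOpen_univ 0).mono
      (norm_zero.trans_le (by positivity))⟩⟩

variable {c : α → Cfg M (Option κ) lam r} {t : α → T} {U V : ∀ i, M → CL (c i).m.V o.m.V}
  {θ : α → Circle}

theorem TS.congr {R' : ℝ} (h : TS X c t l V θ d R') (hL : R' ≤ L)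
    (e : ∀ i, ∀ x ∈ Es X L, U i x = V i x) : TS X c t l U θ d L := fun j =>
  (h j).imp fun _ hC => hC.mono fun i hi s hs =>
    (hi s (hL.trans hs)).congr (fun x hx => e i x (es_mono hs hx.2)) fun _ _ => rfl

theorem tb_gA (hL : X.R ≤ L) (ht : ∀ᶠ i in l, t i ∈ 𝔉.Q) (h : TS X c t l U θ d L) :
    TB X l d L fun i => gA o (t i) (c i) (U i) := by
  refine TB.fm fun a => ((tb_ind (N := CL o.m.V o.m.V)
    (f := fun i => dA 𝔉.F0 (c i) (bt o (t i)) (U i) a) fun j => (h j).imp fun _ hC =>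
      hC.mono fun i hi s hs => (hi s hs).A a).clm (-hsL)).congr (ht.mono fun i hi x hx => ?_)
  by_cases k : x ∈ 𝔉.Om
  · obtain ⟨b, hb⟩ := mem_iUnion.1 hx
    rw [gA, indicator_of_mem k, indicator_of_mem k, PiLp.toLp_apply, D_es X hi hL hx,
      W0_end X.ok (X.okP b) hi (U_mono _ hL hb), map_neg]
    rfl
  · simp [gA, k]

theorem tb_gP (h0 : ∀ᶠ i in l, ∀ x ∈ 𝔉.Om \ 𝔉.Om', (c i).Φ x = 0) (h : TS X c t l U θ d L) :
    TB X l d L fun i => gP o (c i) (U i) (θ i) :=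
  (tb_ind (N := o.m.V) (f := fun i => dP (c i) (bt o (t i)) (U i) (θ i)) fun j =>
    (h j).imp fun _ hC => hC.mono fun _ hi s hs => (hi s hs).P).congr
      (h0.mono fun _ hi x _ => congrFun (gP_eq X.ok hi _ _ _) x)

section cv
variable {y₀ : Pnt o r} {ζ : α → Circle} {u : ∀ i, M → CL (c i).m.V o.m.V} [l.NeBot] (H : 𝔉.OK)
  (hc : ∀ᶠ i in l, t i ∈ 𝔉.Q ∧ Adm0 (c i) 𝔉.B (𝔉.G (t i)))
  (hu : ULim I 𝔉.B l 𝔉.Om (fun i => (𝔉.G (t i)).F.e) c y₀.cfg u ζ)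
  {h : α → M → CL o.m.V o.m.V} {w : M → CL o.m.V o.m.V} (hw : Cv I l 𝔉.Om h w)
  (e : ∀ x ∈ 𝔉.Om, ∀ᶠ q : α × M in l ×ˢ 𝓝 x, Iso0 I o.m o.m {q.2} (h q.1) ∧
    ∀ᶠ y in 𝓝 q.2, U q.1 y = h q.1 y ∘L u q.1 y)
include H hc hu hw e

theorem cv_gA (ht : Tendsto t l (𝓝[𝔉.Q] y₀.t)) :
    Cv I l univ (fun i => gA o (t i) (c i) (U i)) (gA o y₀.t y₀.cfg w) := by
  refine cv_ind H.Om ((Cv.pi fun a => Cv.clm hsL (Cv.neg ?_)).clm (PiLp.continuousLinearEquiv 2 ℝ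
    fun _ : Option κ => o.m.A).symm.toContinuousLinearMap)
  have c1 : Cv I l 𝔉.Om (fun i => (𝔉.G (t i)).F.D a (h i)) ((𝔉.G y₀.t).F.D a w) :=
    (Cv.sum fun b => (sb_cv (H.sS a b) y₀.ht ht).smul (hw.D H.Om.2 𝔉.F0.toPre b)).congr' H.Om.2
      (hc.mono fun i hi x _ => congrFun ((H.mix _ hi.1).D a _) x)
      fun x _ => congrFun ((H.mix _ y₀.ht).D a _) x
  refine ((((c1.add ((sb_cv (sb_W H a) y₀.ht ht).clm_comp hw)).sub (hw.clm_comp (.fixed'
    ((y₀.ad0 H).conn.cc.sm a)))).clm_comp (hw.clm trnL)).add (hw.clm_comp ((hu.A a).clm_comp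
      (hw.clm adL)))).congr (fun x hx => ?_) fun x _ => (add_eq_left.2 (by
        rw [Pi.zero_apply, ContinuousLinearMap.zero_comp]
        exact ContinuousLinearMap.comp_zero _)).symm
  filter_upwards [e x hx, ulim_iso hu (hc.mono fun _ k => k.2.ok) o.ok hx] with q k1 k2
  exact (dA_congr (c' := bw o (t q.1)) k1.2 a).eq_of_nhds.trans
    (dA_comp (c' := y₀.cfg) (c'' := bw o (t q.1)) k2 k1.1 rfl a)

theorem cv_gP (hθ : Tendsto (fun i => θ i / ζ i) l (𝓝 1)) :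
    Cv I l univ (fun i => gP o (c i) (U i) (θ i)) (gP o y₀.cfg w 1) := by
  refine (cv_ind H.Om' (Cv.mono ?_ le_rfl H.sub)).sub (.fixed' o.cΦ.choose_spec.1)
  refine (((Cv.consts ((continuous_subtype_val.tendsto _).comp hθ)).clm (csB o.m.J)).app
    (hw.app hu.Φ)).congr (fun x hx => (e x hx).mono fun q k => ?_) fun _ _ => rfl
  rw [k.2.self_of_nhds, csB_apply]
  refine .trans ?_ (congrArg _ (map_cs (k.1.J _ rfl).symm _ _).symm)
  rw [cs_mul o.ok.Jsq]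
  exact congrArg (cs _ · _) (by simp)

end cv

variable (X) in
/-- **LEAF NEAR** -/
theorem near : X.NearStmt := by
  intro o R R' d r y₀ α 𝒰 c t ζ' v hl hR hd ht h0 ⟨u, ζ, hu⟩ h1 h2 k hk
  have H := X.ok
  have hQ := ht.eventually (H.opn.mem_nhds y₀.ht)
  have ht' := tendsto_nhdsWithin_iff.2 ⟨ht, hQ⟩
  have hc := hQ.and (h0.mono fun _ h => h.1)
  have hR' : X.R ≤ R' := by linarith [hl.le]
  obtain ⟨V, θ, k1, k2, k3, k4⟩ := ends_gauge X hl hc hu ht hR (X.δ0.trans hd) h1 h2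
  obtain ⟨U, h, w, L, g1, g2, g3, g4, g5, g6⟩ := glue X hc hu ht hR' k3 k4
  have hL := hR'.trans g1
  have cA := cv_gA H hc hu g4 g5 ht'
  have cP := cv_gP H hc hu g4 g5 k1
  have tA := tb_gA hL hQ (k3.congr g1 g2)
  have tP := tb_gP (h0.mono fun _ h => h.2) (k3.congr g1 g2)
  obtain ⟨y₁, e1, e2, e3, e4⟩ := End3.pt o H r y₀.t y₀.cfg w 1 y₀.ht (adm0 (y₀.ad0 H))
    (fun x hx => y₀.off H x hx.2) ((iso0_lim H.Om.2 o.ok o.ok g4 fun x hx => (g5 x hx).curry.mono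
      fun _ hi => hi.self_of_nhds.1).mEq (OK.on o.ok _) (OK.on o.ok _))
    ((tA.lim cA (pure (𝒰.nonempty_of_mem univ_mem).some)).nice hL hd fun _ => cA.smoothAt isOpen_univ trivial)
    ((tP.lim cP (pure (𝒰.nonempty_of_mem univ_mem).some)).nice hL hd fun _ => cP.smoothAt isOpen_univ trivial)
  have : ∀ᶠ i in (𝒰 : Filter α), ∃ y : Pnt o r, y.t = t i ∧
      EqOn 𝔉.B (𝔉.G (t i)).F 𝔉.Om (c i) y.cfg (U i) (θ i) ∧ (∀ x, y.α x = idx (𝔉.Si (t i) x)
        (.id ℝ _) (gA o (t i) (c i) (U i) x)) ∧ y.φ = gP o (c i) (U i) (θ i) := by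
    filter_upwards [hQ, h0, k2, g3] with i a b e f
    refine End3.pt o H r _ _ _ _ a b.1 b.2 (f.mEq (OK.on b.1.ok _) (OK.on o.ok _))
      ((tb_gA (l := pure i) hL a (e.congr g1 g2)).nice hL hd (sm_gA H a b.1 f))
      ((tb_gP (l := pure i) b.2 (e.congr g1 g2)).nice hL hd ?_)
    rw [gP_eq H b.2 _ _ (t i)]
    exact Eqv71.sm_ind H.Om fun x hx => ((csB o.m.J (θ i)).contMDiff.contMDiffAt.comp x
      ((f.su x hx).clm_apply (b.1.sm x))).sub (o.cΦ.choose_spec.1 x)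
  obtain ⟨y, hy⟩ := this.choice
  have sS : SB 𝔉.F0.toPre 𝔉.Q fun t x => idx (𝔉.Si t x) (ContinuousLinearMap.id ℝ o.m.A) :=
    Map77.Cls.idx (K := Map77.sb 𝔉.F0.toPre H.mix H.sS) H.sSi (SB.fixed (Cb_const _))
  refine ⟨y, y₁, w, e1, ⟨rfl, ale X e2 e1 hl g6⟩, e2, .prodMk_nhds ?_ (.prodMk_nhds ?_
    (.prodMk_nhds ?_ ?_)), hy.mono fun i hi => ⟨hi.1, U i, θ i, hi.1 ▸ hi.2.1⟩⟩
  · exact (tA.app fun j => (sS.bound j y₀.ht).imp fun _ hC => ((ht'.eventually hC).and hQ).mono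
      fun i hi => Lb.of_CB (sS.cb _ hi.2).choose_spec.1 hi.1).tend hL hd
      (funext e3 ▸ (sb_cv sS y₀.ht ht').app cA) (hy.mono fun i hi => funext hi.2.2.1)
      (fun i => (y i).hα) y₁.hα (by omega)
  · exact tP.tend hL hd (e4 ▸ cP) (hy.mono fun i hi => hi.2.2.2) (fun i => (y i).hφ) y₁.hφ
      (by omega)
  · refine (show y₁.z = _ from e2.z) ▸ ((((continuous_subtype_val.tendsto _).comp k1).pow 2).smul
      hu.z).congr' (hy.mono fun i hi => .trans ?_ hi.2.1.z.symm)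
    simp [smul_smul, ← mul_pow]
  · exact e1 ▸ ht.congr' (hy.mono fun i hi => hi.1.symm)

end Crest.Agent.X212.End14
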